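import Mathlib
import Vale.Agent.P100.UnitBound
import Vale.Agent.P100.SuperW
import Vale.Agent.P100.Souplet.Local

/-!
# The system with a common weight: solutions, energy, scaling

`-Δu = ‖x‖ ^ w v ^ p`, `-Δv = ‖x‖ ^ w u ^ q` off the origin, with `w > -2`.
-/

open MeasureTheory Filter Set Metric Topology

namespace Vale.Agent.P100.SoupletW

variable {n : ℕ} {w p q : ℝ}

/-- A positive entire solution with a common weight, in the sense of the problem. -/
structure IsSolW (w p q : ℝ) (u v : EuclideanSpace ℝ (Fin n) → ℝ) : Prop where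
  contU : Continuous u
  contV : Continuous v
  smoothU : ContDiffOn ℝ 2 u {0}ᶜ
  smoothV : ContDiffOn ℝ 2 v {0}ᶜ
  posU : ∀ x, 0 < u x
  posV : ∀ x, 0 < v x
  eqU : ∀ x, x ≠ 0 → Laplacian.laplacian u x = -(‖x‖ ^ w * v x ^ p)
  eqV : ∀ x, x ≠ 0 → Laplacian.laplacian v x = -(‖x‖ ^ w * u x ^ q)

variable {u v : EuclideanSpace ℝ (Fin n) → ℝ}

theorem IsSolW.swap (h : IsSolW w p q u v) : IsSolW w q p v u :=
  ⟨h.contV, h.contU, h.smoothV, h.smoothU, h.posV, h.posU, h.eqV, h.eqU⟩

theorem IsSolW.contDiffAtU (h : IsSolW w p q u v) {x : EuclideanSpace ℝ (Fin n)} (hx : x ≠ 0) :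
    ContDiffAt ℝ 2 u x :=
  h.smoothU.contDiffAt (isOpen_compl_singleton.mem_nhds hx)

theorem IsSolW.energy_nonneg (h : IsSolW w p q u v) (x : EuclideanSpace ℝ (Fin n)) :
    0 ≤ energy p q u v x :=
  add_nonneg (Real.rpow_nonneg (h.posU x).le _) (Real.rpow_nonneg (h.posV x).le _)

theorem IsSolW.continuous_energy (h : IsSolW w p q u v) : Continuous (energy p q u v) :=
  (h.contU.rpow_const fun x => Or.inl (h.posU x).ne').add
    (h.contV.rpow_const fun x => Or.inl (h.posV x).ne')

theorem IsSolW.continuousOn_fderiv (h : IsSolW w p q u v) :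
    ContinuousOn (fun x => ‖fderiv ℝ u x‖) {0}ᶜ ∧ ContinuousOn (fun x => ‖fderiv ℝ v x‖) {0}ᶜ :=
  ⟨(h.smoothU.continuousOn_fderiv_of_isOpen isOpen_compl_singleton one_le_two).norm,
   (h.smoothV.continuousOn_fderiv_of_isOpen isOpen_compl_singleton one_le_two).norm⟩

theorem IsSolW.sphereDens_nonneg (h : IsSolW w p q u v) (x : EuclideanSpace ℝ (Fin n)) :
    0 ≤ sphereDens p q u v x := by
  have := h.energy_nonneg x
  have := (h.posU x).le
  have := (h.posV x).le
  unfold sphereDens; positivity

theorem IsSolW.measurable_sphereDens (h : IsSolW w p q u v) : Measurable (sphereDens p q u v) :=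
  (((h.continuous_energy.measurable.add
    ((measurable_fderiv ℝ u).norm.mul (measurable_fderiv ℝ v).norm)).add
    (h.contV.measurable.mul (measurable_fderiv ℝ u).norm)).add
    (h.contU.measurable.mul (measurable_fderiv ℝ v).norm))

/-- `|x| ^ w (u ^ (q + 1) + v ^ (p + 1))`. -/
noncomputable def energyW (w p q : ℝ) (u v : EuclideanSpace ℝ (Fin n) → ℝ)
    (x : EuclideanSpace ℝ (Fin n)) : ℝ :=
  ‖x‖ ^ w * energy p q u v x

theorem IsSolW.energyW_nonneg (h : IsSolW w p q u v) (x : EuclideanSpace ℝ (Fin n)) :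
    0 ≤ energyW w p q u v x :=
  mul_nonneg (Real.rpow_nonneg (norm_nonneg x) _) (h.energy_nonneg x)

/-- The weight is integrable at the origin, since `w > -n`. -/
theorem IsSolW.integrableOn_energyW (h : IsSolW w p q u v) (hn : 2 ≤ n) (hw : -2 < w) (r : ℝ) :
    IntegrableOn (energyW w p q u v) (closedBall (0 : EuclideanSpace ℝ (Fin n)) r) := by
  have h2 : (2 : ℝ) ≤ n := by exact_mod_cast hn
  have hi := Souplet.integrableOn_pot (μ := (volume : Measure (EuclideanSpace ℝ (Fin n))))
    (by rw [finrank_euclideanSpace_fin]; omega)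
    (isCompact_closedBall (0 : EuclideanSpace ℝ (Fin n)) r) h.continuous_energy
    (0 : EuclideanSpace ℝ (Fin n)) (m := -w) (by rw [finrank_euclideanSpace_fin]; linarith)
  refine hi.congr_fun (fun y _ => ?_) isClosed_closedBall.measurableSet
  simp [energyW]

/-- On balls of radius at most two the weight is bounded below. -/
theorem IsSolW.energy_integral_le (h : IsSolW w p q u v) (hn : 2 ≤ n) (hw : -2 < w) (hw0 : w ≤ 0)
    {r : ℝ} (hr : r ≤ 2) :
    ∫ x in closedBall (0 : EuclideanSpace ℝ (Fin n)) r, energy p q u v x ≤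
      2 ^ (-w) * ∫ x in closedBall (0 : EuclideanSpace ℝ (Fin n)) r, energyW w p q u v x := by
  rw [← integral_const_mul]
  refine setIntegral_mono_ae_restrict
    (h.continuous_energy.continuousOn.integrableOn_compact (isCompact_closedBall _ _))
    ((h.integrableOn_energyW hn hw r).const_mul _) ?_
  have : Nontrivial (EuclideanSpace ℝ (Fin n)) := Module.nontrivial_of_finrank_pos (R := ℝ)
    (by rw [finrank_euclideanSpace_fin]; omega)
  have h0 : ∀ᵐ x ∂(volume : Measure (EuclideanSpace ℝ (Fin n))), x ≠ 0 :=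
    compl_mem_ae_iff.2 (measure_singleton 0)
  filter_upwards [ae_restrict_of_ae h0, ae_restrict_mem isClosed_closedBall.measurableSet]
    with x hx hxr
  have hxr' : ‖x‖ ≤ 2 := le_trans (by simpa using hxr) hr
  have h1 : (1 : ℝ) ≤ 2 ^ (-w) * ‖x‖ ^ w := by
    refine le_trans (le_of_eq ?_) (mul_le_mul_of_nonneg_left
      (Real.rpow_le_rpow_of_nonpos (norm_pos_iff.2 hx) hxr' hw0) (by positivity))
    rw [← Real.rpow_add two_pos, neg_add_cancel, Real.rpow_zero]
  calc energy p q u v x ≤ 2 ^ (-w) * ‖x‖ ^ w * energy p q u v x :=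
        le_mul_of_one_le_left (h.energy_nonneg x) h1
    _ = 2 ^ (-w) * energyW w p q u v x := by rw [energyW]; ring

/-- The exponent of the scaling `u ↦ c ^ α u (c x)` with weight `w`. -/
noncomputable def scalExpW (w p q : ℝ) : ℝ := (2 + w) * (p + 1) / (p * q - 1)

theorem scalExpW_mul (hpq : 1 < p * q) :
    scalExpW w q p * p = scalExpW w p q + (2 + w) ∧
      scalExpW w p q * (q + 1) = scalExpW w q p * (p + 1) := by
  have : p * q - 1 ≠ 0 := by linarith
  constructor
  · unfold scalExpW
    rw [mul_comm q p, div_mul_eq_mul_div, div_add' _ _ _ this]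
    congr 1
    ring
  · unfold scalExpW
    rw [mul_comm q p, div_mul_eq_mul_div, div_mul_eq_mul_div]
    congr 1
    ring

theorem IsSolW.scale (h : IsSolW w p q u v) (hpq : 1 < p * q) {c : ℝ} (hc : 0 < c) :
    IsSolW w p q (fun x => c ^ scalExpW w p q * u (c • x))
      (fun x => c ^ scalExpW w q p * v (c • x)) := by
  have key : ∀ {p' q' : ℝ} {u' v' : EuclideanSpace ℝ (Fin n) → ℝ}, IsSolW w p' q' u' v' →
      1 < p' * q' → ∀ x : EuclideanSpace ℝ (Fin n), x ≠ 0 →
      Laplacian.laplacian (fun x => c ^ scalExpW w p' q' * u' (c • x)) x =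
        -(‖x‖ ^ w * (c ^ scalExpW w q' p' * v' (c • x)) ^ p') := by
    intro p' q' u' v' h' hpq' x hx
    have hx' : c • x ≠ 0 := smul_ne_zero hc.ne' hx
    rw [laplacian_const_mul_comp_smul _ hc.ne' (h'.contDiffAtU hx'), h'.eqU _ hx', norm_smul,
      Real.norm_of_nonneg hc.le, Real.mul_rpow hc.le (norm_nonneg x),
      Real.mul_rpow (by positivity) (h'.posV _).le, ← Real.rpow_mul hc.le, (scalExpW_mul hpq').1,
      Real.rpow_add hc, Real.rpow_add hc, Real.rpow_two]
    ring
  have sm : ∀ {f : EuclideanSpace ℝ (Fin n) → ℝ}, ContDiffOn ℝ 2 f {0}ᶜ → ∀ a : ℝ,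
      ContDiffOn ℝ 2 (fun x => a * f (c • x)) {0}ᶜ := fun hf a =>
    contDiffOn_const.mul (hf.comp (contDiff_id.const_smul c).contDiffOn fun x hx =>
      smul_ne_zero hc.ne' hx)
  exact ⟨continuous_const.mul (h.contU.comp (continuous_const_smul c)),
    continuous_const.mul (h.contV.comp (continuous_const_smul c)),
    sm h.smoothU _, sm h.smoothV _,
    fun x => mul_pos (Real.rpow_pos_of_pos hc _) (h.posU _),
    fun x => mul_pos (Real.rpow_pos_of_pos hc _) (h.posV _),
    key h hpq, key h.swap (by rwa [mul_comm])⟩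

/-- A bound on the unit ball energy, uniform over all solutions, rules out solutions. -/
theorem nonexistence_of_unit_boundW (hn : 2 ≤ n) (hw : -2 < w) (hw0 : w ≤ 0) (hp : 0 < p)
    (hq : 0 < q) (hpq : 1 < p * q)
    (hsub : (n : ℝ) - 2 < ((n : ℝ) + w) / (p + 1) + ((n : ℝ) + w) / (q + 1)) {C : ℝ}
    (hC : ∀ u v : EuclideanSpace ℝ (Fin n) → ℝ, IsSolW w p q u v →
      ∫ x in closedBall (0 : EuclideanSpace ℝ (Fin n)) 1, energyW w p q u v x ≤ C) :
    ¬ ∃ u v : EuclideanSpace ℝ (Fin n) → ℝ, IsSolW w p q u v := by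
  rintro ⟨u, v, h⟩
  set κ := scalExpW w p q * (q + 1) with hκ
  have hκn : (n : ℝ) + w < κ := by
    rw [hκ, scalExpW, div_mul_eq_mul_div, lt_div_iff₀ (by linarith)]
    rw [div_add_div _ _ (by linarith) (by linarith), lt_div_iff₀ (by positivity)] at hsub
    nlinarith
  set F := ∫ x in closedBall (0 : EuclideanSpace ℝ (Fin n)) 1, energyW w p q u v x with hF
  have hF0 : 0 < F := by
    have h0 : 0 < ∫ x in closedBall (0 : EuclideanSpace ℝ (Fin n)) 1, energy p q u v x := by
      rw [setIntegral_pos_iff_support_of_nonneg_ae (ae_of_all _ h.energy_nonneg)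
        (h.continuous_energy.continuousOn.integrableOn_compact (isCompact_closedBall _ _))]
      have : Function.support (energy p q u v) = univ := Set.eq_univ_of_forall fun x => ne_of_gt
        (add_pos (Real.rpow_pos_of_pos (h.posU x) _) (Real.rpow_pos_of_pos (h.posV x) _))
      rw [this, univ_inter]
      exact measure_closedBall_pos _ _ one_pos
    exact pos_of_mul_pos_right
      (h0.trans_le (h.energy_integral_le hn hw hw0 one_le_two)) (by positivity)
  have hb : ∀ c : ℝ, 1 ≤ c → c ^ (κ - w - n) * F ≤ C := by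
    intro c hc
    have hc0 : 0 < c := by linarith
    refine le_trans ?_ (hC _ _ (h.scale hpq hc0))
    have e : ∀ x, energyW w p q (fun x => c ^ scalExpW w p q * u (c • x))
        (fun x => c ^ scalExpW w q p * v (c • x)) x =
          c ^ (κ - w) * energyW w p q u v (c • x) := fun x => by
      simp only [energyW, energy]
      rw [Real.mul_rpow (by positivity) (h.posU _).le, Real.mul_rpow (by positivity) (h.posV _).le,
        ← Real.rpow_mul hc0.le, ← Real.rpow_mul hc0.le, ← (scalExpW_mul hpq).2, ← hκ, norm_smul,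
        Real.norm_of_nonneg hc0.le, Real.mul_rpow hc0.le (norm_nonneg x), Real.rpow_sub hc0]
      field_simp
    simp only [e]
    rw [integral_const_mul, Measure.setIntegral_comp_smul_of_pos volume _ _ hc0,
      finrank_euclideanSpace_fin, _root_.smul_closedBall _ _ zero_le_one, smul_zero, mul_one,
      Real.norm_of_nonneg hc0.le, smul_eq_mul, Real.rpow_sub hc0, Real.rpow_natCast,
      div_eq_mul_inv, mul_assoc]
    refine mul_le_mul_of_nonneg_left (mul_le_mul_of_nonneg_left ?_ (by positivity)) (by positivity)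
    exact setIntegral_mono_set (h.integrableOn_energyW hn hw c) (ae_of_all _ h.energyW_nonneg)
      (LE.le.eventuallyLE (closedBall_subset_closedBall hc))
  have ht : Tendsto (fun c : ℝ => c ^ (κ - w - n) * F) atTop atTop :=
    (tendsto_rpow_atTop (by linarith)).atTop_mul_const hF0
  obtain ⟨c, hc, hc1⟩ := ((ht.eventually_gt_atTop C).and (eventually_ge_atTop 1)).exists
  exact absurd (hb c hc1) (not_le.2 hc)

end Vale.Agent.P100.SoupletW
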