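import Mathlib
import Vale.Agent.P100.Souplet.L1
import Vale.Agent.P100.SoupletW.Defs

/-!
# Uniform bounds with a common weight `w ∈ (-2, 0]`

The integrals of `u`, `v` over `‖x‖ ≤ 4` and of `v ^ p`, `u ^ q` over `1/2 ≤ ‖x‖ ≤ 4` are bounded
independently of the solution; by scaling the averages of `v` over large balls tend to zero.
-/

open MeasureTheory Filter Set Metric Topology Laplacian

namespace Vale.Agent.P100.SoupletW

open Souplet

variable {n : ℕ} {w p q : ℝ}

/-- A superharmonic function on the punctured space has mass on `B(0,4)` controlled by one value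
on the sphere of radius `4`. -/
theorem ball_mass (hn : 3 ≤ n) : ∃ C : ℝ, 0 ≤ C ∧
    ∀ u : EuclideanSpace ℝ (Fin n) → ℝ, Continuous u → (∀ y ≠ 0, ContDiffAt ℝ 2 u y) →
      (∀ y, 0 ≤ u y) → (∀ y ≠ 0, Laplacian.laplacian u y ≤ 0) → ∀ x, ‖x‖ = 4 →
      (∫ y in closedBall (0 : EuclideanSpace ℝ (Fin n)) 4, u y) ≤ C * (u x + 1) := by
  set N₀ := ((1 / 4 : ℝ)) ^ ((2 - (n : ℝ)) / 2) with hN₀
  set I : ℝ := ∫ y : EuclideanSpace ℝ (Fin n), avgW y
  have hN₀0 : 0 ≤ N₀ := by positivity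
  have hI : 0 < I := integral_avgW_pos
  refine ⟨64 / 27 * 16 ^ n * I * (N₀ + 2), by positivity, ?_⟩
  intro u huc hu hu0 equ x hx
  obtain ⟨U, hU, hU0, hUx, hUl, hUu, -⟩ := exists_trunc_ge hn huc hu hu0 (f := fun _ => 0)
    (fun _ => le_rfl) (fun y hy => by simpa using equ y hy) (by linarith : 1 / 2 ≤ ‖x‖) 4
  have hUI : U x * I ≤ (N₀ + 2) * I * (u x + 1) := by
    have : U x ≤ (N₀ + 2) * (u x + 1) := by nlinarith [hu0 x]
    nlinarith
  have hd : ∀ R, HasDerivAt (avg U x) (R * ∫ y, Laplacian.laplacian U (x + R • y) * avgPot y) R :=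
    hasDerivAt_avg hU x
  have hanti : AntitoneOn (avg U x) (Ici 0) :=
    antitoneOn_of_hasDerivWithinAt_nonpos (convex_Ici 0)
      (fun R _ => (hd R).continuousAt.continuousWithinAt) (fun R _ => (hd R).hasDerivWithinAt)
      fun R hR => mul_nonpos_of_nonneg_of_nonpos (interior_subset hR : R ∈ Ici (0 : ℝ))
        (integral_nonpos fun y => mul_nonpos_of_nonpos_of_nonneg (hUl _) (avgPot_nonneg y))
  have h16 : avg U x 16 ≤ U x * I := by
    rw [← avg_zero]
    exact hanti (mem_Ici.2 le_rfl) (by norm_num) (by norm_num)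
  have hm : MeasurableSet (closedBall (0 : EuclideanSpace ℝ (Fin n)) 4) :=
    isClosed_closedBall.measurableSet
  have h : (16 ^ n : ℝ)⁻¹ * (27 / 64 * ∫ y in closedBall (0 : EuclideanSpace ℝ (Fin n)) 4, u y) ≤
      avg U x 16 := by
    have e : avg U x 16 = (16 ^ n : ℝ)⁻¹ * ∫ z, U z * avgW ((16 : ℝ)⁻¹ • (z - x)) := by
      rw [← integral_comp_affine _ x (by norm_num : (0 : ℝ) ≤ 16)]
      simp only [add_sub_cancel_left, smul_smul, inv_mul_cancel₀ (by norm_num : (16 : ℝ) ≠ 0),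
        one_smul]
      rfl
    rw [e, ← integral_const_mul, ← integral_indicator hm]
    refine mul_le_mul_of_nonneg_left (integral_mono_of_nonneg (Eventually.of_forall fun z =>
      indicator_nonneg (fun w _ => by have := hu0 w; positivity) z) ?_
      (Eventually.of_forall fun z => ?_)) (by positivity)
    · refine (hU.continuous.mul (continuous_avgW.comp (by fun_prop))).integrable_of_hasCompactSupport ?_
      refine HasCompactSupport.intro (isCompact_closedBall x 16) fun z hz => ?_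
      simp only [mem_closedBall, dist_eq_norm, not_le] at hz
      show U z * avgW _ = 0
      rw [avgW_eq_zero, mul_zero]
      rw [norm_smul, Real.norm_eq_abs, abs_of_nonneg (by norm_num : (0 : ℝ) ≤ 16⁻¹),
        le_inv_mul_iff₀ (by norm_num)]
      linarith
    · refine indicator_apply_le' (fun hz => ?_) (fun _ => mul_nonneg (hU0 z) (avgW_nonneg _))
      have hz4 : ‖z‖ ≤ 4 := by simpa using hz
      rw [mul_comm]
      refine mul_le_mul (hUu z hz4) (weight_lower ?_).1 (by norm_num) (hU0 z)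
      rw [norm_smul, Real.norm_eq_abs, abs_of_nonneg (by norm_num : (0 : ℝ) ≤ 16⁻¹),
        inv_mul_le_iff₀ (by norm_num)]
      linarith [norm_sub_le z x]
  rw [inv_mul_le_iff₀ (by positivity)] at h
  have h3 := mul_le_mul_of_nonneg_left (h16.trans hUI) (by positivity : (0 : ℝ) ≤ 16 ^ n)
  nlinarith

/-- Some point of norm `4` carries uniformly bounded values. -/
theorem sphere_value_boundW (hn : 3 ≤ n) (hw0 : w ≤ 0) (hp : 0 < p) (hq : 0 < q)
    (hpq : 1 < p * q) :
    ∃ C : ℝ, 0 ≤ C ∧ ∀ u v : EuclideanSpace ℝ (Fin n) → ℝ, IsSolW w p q u v →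
      ∃ x, ‖x‖ = 4 ∧ u x ≤ C := by
  have hdim : 2 ≤ Module.finrank ℝ (EuclideanSpace ℝ (Fin n)) := by
    rw [finrank_euclideanSpace_fin]; omega
  set d : ℝ := Module.finrank ℝ (EuclideanSpace ℝ (Fin n)) + 1
  set a₁ : ℝ := 3 / (4 * d) * ((1 / 4 : ℝ) ^ d) ^ p * 2 ^ w * 4 ^ (2 + w) with ha₁
  set a₂ : ℝ := 3 / (4 * d) * ((1 / 4 : ℝ) ^ d) ^ q * 2 ^ w * 4 ^ (2 + w) with ha₂
  have hd : 0 < d := by positivity
  have h1 : 0 < a₁ := by positivity
  have h2 : 0 < a₂ := by positivity
  refine ⟨(1 / (a₁ * a₂ ^ p)) ^ (1 / (p * q - 1)), by positivity, fun u v h => ?_⟩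
  have : Nontrivial (EuclideanSpace ℝ (Fin n)) :=
    Module.nontrivial_of_finrank_pos (R := ℝ) (by omega)
  obtain ⟨xu, hxu, hxu'⟩ := (isCompact_closedBall (0 : EuclideanSpace ℝ (Fin n)) 4).exists_isMinOn
    ⟨0, by simp⟩ h.contU.continuousOn
  obtain ⟨xv, hxv, hxv'⟩ := (isCompact_closedBall (0 : EuclideanSpace ℝ (Fin n)) 4).exists_isMinOn
    ⟨0, by simp⟩ h.contV.continuousOn
  have hxu0 : ‖xu‖ ≤ 4 := by simpa using hxu
  have hxv0 : ‖xv‖ ≤ 4 := by simpa using hxv
  have lu : ∀ x, x ≠ 0 → Laplacian.laplacian u x < 0 := fun x hx => by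
    rw [h.eqU x hx]; exact Super.rhsW_neg h.posV w p hx
  have lv : ∀ x, x ≠ 0 → Laplacian.laplacian v x < 0 := fun x hx => by
    rw [h.eqV x hx]; exact Super.rhsW_neg h.posU w q hx
  have g1 : a₁ * v xv ^ p ≤ u xu :=
    Super.gainW hdim h.contU h.contV h.smoothU h.smoothV h.posU h.posV lv hp hw0
      (fun x hx => (h.eqU x hx).le) (by norm_num) (h.posV xv)
      (fun z hz => hxv' (by simpa using hz)) hxu0
  have g2 : a₂ * u xu ^ q ≤ v xv :=
    Super.gainW hdim h.contV h.contU h.smoothV h.smoothU h.posV h.posU lu hq hw0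
      (fun x hx => (h.eqV x hx).le) (by norm_num) (h.posU xu)
      (fun z hz => hxu' (by simpa using hz)) hxv0
  have hu := h.posU xu
  have g3 : a₁ * a₂ ^ p * u xu ^ (p * q) ≤ u xu := by
    refine le_trans (le_of_eq ?_) ((mul_le_mul_of_nonneg_left
      (Real.rpow_le_rpow (by positivity) g2 hp.le) h1.le).trans g1)
    rw [Real.mul_rpow h2.le (by positivity), ← Real.rpow_mul hu.le, mul_comm q p, mul_assoc]
  have g4 : u xu ≤ (1 / (a₁ * a₂ ^ p)) ^ (1 / (p * q - 1)) := by
    rw [one_div (p * q - 1), Real.le_rpow_inv_iff_of_pos hu.le (by positivity) (by linarith),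
      le_div_iff₀ (by positivity), Real.rpow_sub hu, Real.rpow_one, div_mul_eq_mul_div,
      div_le_one hu]
    linarith
  obtain ⟨x, hx, hxmin⟩ := (isCompact_sphere (0 : EuclideanSpace ℝ (Fin n)) 4).exists_isMinOn
    (NormedSpace.sphere_nonempty.2 (by norm_num)) h.contU.continuousOn
  refine ⟨x, by simpa using hx, le_trans ?_ g4⟩
  exact Super.min_principle_puncture hdim (isCompact_closedBall _ _) isOpen_ball
    ball_subset_closedBall h.contU.continuousOn
    (fun y _ hy => h.smoothU.contDiffAt (isOpen_compl_singleton.mem_nhds hy))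
    (fun y _ hy => lu y hy) (fun y hy hy' => hxmin (by
      simp only [mem_closedBall, mem_ball, not_lt] at hy hy'
      simpa using le_antisymm hy hy')) xu hxu

/-- Bounds uniform over all solutions. -/
theorem ann_boundsW (hn : 3 ≤ n) (hw0 : w ≤ 0) (hp : 0 < p) (hq : 0 < q) (hpq : 1 < p * q) :
    ∃ C : ℝ, 0 ≤ C ∧ ∀ u v : EuclideanSpace ℝ (Fin n) → ℝ, IsSolW w p q u v →
      (∫ y in closedBall (0 : EuclideanSpace ℝ (Fin n)) 4, u y) ≤ C ∧
      (∫ y in closedBall (0 : EuclideanSpace ℝ (Fin n)) 4, v y) ≤ C ∧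
      (∫ y in ann n 4, v y ^ p) ≤ C ∧ (∫ y in ann n 4, u y ^ q) ≤ C := by
  obtain ⟨C₀, hC₀, hb⟩ := point_bounds hn
  obtain ⟨C₃, hC₃, hm⟩ := ball_mass hn
  obtain ⟨C₁, hC₁, hs1⟩ := sphere_value_boundW hn hw0 hp hq hpq
  obtain ⟨C₂, hC₂, hs2⟩ := sphere_value_boundW hn hw0 hq hp (by rwa [mul_comm])
  refine ⟨(C₀ * 4 ^ (-w) + C₃) * (C₁ + C₂ + 1), by positivity, fun u v h => ?_⟩
  have key : ∀ {p' q' : ℝ} {u' v' : EuclideanSpace ℝ (Fin n) → ℝ} (C : ℝ), IsSolW w p' q' u' v' →
      C ≤ C₁ + C₂ → (∃ x, ‖x‖ = 4 ∧ u' x ≤ C) →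
      (∫ y in closedBall (0 : EuclideanSpace ℝ (Fin n)) 4, u' y) ≤
          (C₀ * 4 ^ (-w) + C₃) * (C₁ + C₂ + 1) ∧
        (∫ y in ann n 4, v' y ^ p') ≤ (C₀ * 4 ^ (-w) + C₃) * (C₁ + C₂ + 1) := by
    intro p' q' u' v' C h' hC ⟨x, hx, hux⟩
    have hu1 : u' x + 1 ≤ C₁ + C₂ + 1 := by linarith
    have h0 : 0 ≤ C₀ * 4 ^ (-w) := by positivity
    have hsum : 0 ≤ C₁ + C₂ + 1 := by linarith
    constructor
    · refine (hm u' h'.contU (fun y hy => h'.contDiffAtU hy) (fun y => (h'.posU y).le)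
        (fun y hy => by rw [h'.eqU y hy]; exact (Super.rhsW_neg h'.posV w p' hy).le) x hx).trans ?_
      refine (mul_le_mul_of_nonneg_left hu1 hC₃).trans ?_
      exact mul_le_mul_of_nonneg_right (by linarith) hsum
    · set f : EuclideanSpace ℝ (Fin n) → ℝ := fun y => max ‖y‖ (1 / 2) ^ w * v' y ^ p' with hf
      have hfc : Continuous f := (Continuous.rpow_const (by fun_prop) fun y =>
        Or.inl (lt_of_lt_of_le (by norm_num : (0 : ℝ) < 1 / 2) (le_max_right _ _)).ne').mul
        (h'.contV.rpow_const fun y => Or.inl (h'.posV y).ne')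
      have hf0 : ∀ y, 0 ≤ f y := fun y => mul_nonneg
        (Real.rpow_nonneg (le_trans (norm_nonneg y) (le_max_left _ _)) _)
        (Real.rpow_nonneg (h'.posV y).le _)
      obtain ⟨-, r2⟩ := hb u' f h'.contU (fun y hy => h'.contDiffAtU hy)
        (fun y => (h'.posU y).le) hfc hf0 (fun y hy => by
          rw [h'.eqU y hy]
          exact neg_le_neg (mul_le_mul_of_nonneg_right (Real.rpow_le_rpow_of_nonpos
            (norm_pos_iff.2 hy) (le_max_left _ _) hw0) (Real.rpow_nonneg (h'.posV y).le _))) x hx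
      have hle : (∫ y in ann n 4, v' y ^ p') ≤ ∫ y in ann n 4, 4 ^ (-w) * f y := by
        refine setIntegral_mono_on ?_ ((hfc.continuousOn.integrableOn_compact
          (isCompact_ann n 4)).const_mul _) (measurableSet_ann n 4) fun y hy => ?_
        · exact (h'.contV.rpow_const fun y => Or.inl (h'.posV y).ne').continuousOn.integrableOn_compact
            (isCompact_ann n 4)
        · have hy0 : 0 < ‖y‖ := by linarith [hy.1]
          simp only [hf, max_eq_left hy.1, ← mul_assoc]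
          refine le_mul_of_one_le_left (Real.rpow_nonneg (h'.posV y).le _) ?_
          refine le_trans (le_of_eq ?_) (mul_le_mul_of_nonneg_left
            (Real.rpow_le_rpow_of_nonpos hy0 hy.2 hw0) (by positivity))
          rw [← Real.rpow_add (by norm_num : (0 : ℝ) < 4), neg_add_cancel, Real.rpow_zero]
      rw [integral_const_mul] at hle
      refine hle.trans ((mul_le_mul_of_nonneg_left (r2.trans
        (mul_le_mul_of_nonneg_left hu1 hC₀)) (by positivity)).trans ?_)
      rw [← mul_assoc, mul_comm _ C₀]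
      exact mul_le_mul_of_nonneg_right (by linarith) hsum
  obtain ⟨a, b⟩ := key C₁ h (by linarith) (hs1 u v h)
  obtain ⟨c, d⟩ := key C₂ h.swap (by linarith) (hs2 v u h.swap)
  exact ⟨a, c, b, d⟩

/-- The averages of `v` over large balls tend to zero. -/
theorem exists_avg_ltW (hn : 3 ≤ n) (hw : -2 < w) (hw0 : w ≤ 0) (hp : 0 < p) (hq : 0 < q)
    (hpq : 1 < p * q) {u v : EuclideanSpace ℝ (Fin n) → ℝ} (h : IsSolW w p q u v)
    (x : EuclideanSpace ℝ (Fin n)) {ε : ℝ} (hε : 0 < ε) : ∃ R, 0 ≤ R ∧ avg v x R < ε := by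
  obtain ⟨C, hC, hb⟩ := ann_boundsW hn hw0 hp hq hpq
  set β := scalExpW w q p with hβ
  have hβ0 : 0 < β := by
    rw [hβ, scalExpW, mul_comm q p]
    exact div_pos (mul_pos (by linarith) (by linarith)) (by linarith)
  have hball : ∀ R : ℝ, 0 < R →
      (∫ y in closedBall (0 : EuclideanSpace ℝ (Fin n)) (4 * R), v y) ≤ C * R ^ ((n : ℝ) - β) := by
    intro R hR
    have hb' := (hb _ _ (h.scale hpq hR)).2.1
    rw [integral_const_mul, Measure.setIntegral_comp_smul_of_pos volume _ _ hR,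
      finrank_euclideanSpace_fin, _root_.smul_closedBall _ _ (by norm_num : (0 : ℝ) ≤ 4),
      smul_zero, Real.norm_of_nonneg hR.le, smul_eq_mul, ← mul_assoc, mul_comm R 4, ← hβ] at hb'
    rw [Real.rpow_sub hR, Real.rpow_natCast, mul_div_assoc', le_div_iff₀ (Real.rpow_pos_of_pos hR _)]
    calc (∫ y in closedBall (0 : EuclideanSpace ℝ (Fin n)) (4 * R), v y) * R ^ β
        = R ^ β * (R ^ n)⁻¹ * (∫ y in closedBall (0 : EuclideanSpace ℝ (Fin n)) (4 * R), v y) *
            R ^ n := by field_simp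
      _ ≤ C * R ^ n := mul_le_mul_of_nonneg_right hb' (by positivity)
  have ht : Tendsto (fun R : ℝ => C * R ^ (-β)) atTop (𝓝 0) := by
    simpa using (tendsto_rpow_neg_atTop hβ0).const_mul C
  obtain ⟨R, hlt, hR1⟩ := ((ht.eventually_lt_const hε).and
    (eventually_ge_atTop (max 1 ‖x‖))).exists
  have hR0 : 0 < R := zero_lt_one.trans_le ((le_max_left _ _).trans hR1)
  have hxR : ‖x‖ ≤ R := (le_max_right _ _).trans hR1
  refine ⟨R, hR0.le, lt_of_le_of_lt ?_ hlt⟩
  set B := closedBall (0 : EuclideanSpace ℝ (Fin n)) (4 * R) with hB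
  have hvB : IntegrableOn v B :=
    h.contV.continuousOn.integrableOn_compact (isCompact_closedBall _ _)
  have e : avg v x R = (R ^ n)⁻¹ * ∫ z, v z * avgW (R⁻¹ • (z - x)) := by
    rw [← integral_comp_affine _ x hR0.le]
    simp only [add_sub_cancel_left, smul_smul, inv_mul_cancel₀ hR0.ne', one_smul]
    rfl
  have hm : ∫ z, v z * avgW (R⁻¹ • (z - x)) ≤ ∫ z in B, v z := by
    rw [← integral_indicator isClosed_closedBall.measurableSet]
    refine integral_mono_of_nonneg (Eventually.of_forall fun z =>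
      mul_nonneg (h.posV z).le (avgW_nonneg _))
      (hvB.integrable_indicator isClosed_closedBall.measurableSet)
      (Eventually.of_forall fun z => ?_)
    show v z * avgW (R⁻¹ • (z - x)) ≤ B.indicator v z
    by_cases hz : z ∈ B
    · rw [indicator_of_mem hz]
      refine mul_le_of_le_one_right (h.posV z).le (pow_le_one₀ (le_max_right _ _) ?_)
      exact max_le (by nlinarith [norm_nonneg (R⁻¹ • (z - x))]) zero_le_one
    · rw [indicator_of_notMem hz, avgW_eq_zero, mul_zero]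
      rw [hB, mem_closedBall, dist_zero_right, not_le] at hz
      rw [norm_smul, Real.norm_eq_abs, abs_of_nonneg (by positivity : (0 : ℝ) ≤ R⁻¹),
        le_inv_mul_iff₀ hR0]
      linarith [norm_le_norm_sub_add z x]
  rw [e]
  refine (mul_le_mul_of_nonneg_left (hm.trans (hball R hR0)) (by positivity)).trans (le_of_eq ?_)
  rw [Real.rpow_sub hR0, Real.rpow_natCast, Real.rpow_neg hR0.le]
  field_simp

end Vale.Agent.P100.SoupletW
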