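import Mathlib
import Vale.Agent.P100.Compare
import Vale.Agent.P100.SoupletW.L1

/-!
# Souplet's comparison of the components with a common weight

`v ^ (p + 1) / (p + 1) ≤ u ^ (q + 1) / (q + 1)` for `q ≤ p`: the gap of the two components is
subharmonic where positive, as the weight only rescales space locally, and the averages of `v`
over large balls tend to zero by the uniform bounds.
-/

open MeasureTheory Filter Set Topology Laplacian

namespace Vale.Agent.P100.SoupletW

variable {n : ℕ} {w p q : ℝ}

/-- The gap is subharmonic where it is positive, with any positive common weight `W`. -/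
theorem laplacian_gap_nonnegW (hq : 0 < q) (hqp : q ≤ p) {u v : EuclideanSpace ℝ (Fin n) → ℝ}
    {z : EuclideanSpace ℝ (Fin n)} {W : ℝ} (hW : 0 < W)
    (hu : ContDiffAt ℝ 2 u z) (hv : ContDiffAt ℝ 2 v z) (hu0 : 0 < u z)
    (equ : Laplacian.laplacian u z = -(W * v z ^ p))
    (eqv : Laplacian.laplacian v z = -(W * u z ^ q))
    (hz : 0 < gap p q u v z) : 0 ≤ Laplacian.laplacian (gap p q u v) z := by
  set c : ℝ := (Real.sqrt W)⁻¹ with hc
  have hs : 0 < Real.sqrt W := Real.sqrt_pos.2 hW
  have hc0 : c ≠ 0 := inv_ne_zero hs.ne'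
  have hcW : c ^ 2 * W = 1 := by
    rw [hc, inv_pow, Real.sq_sqrt hW.le, inv_mul_cancel₀ hW.ne']
  set y := c⁻¹ • z with hy
  have hcy : c • y = z := smul_inv_smul₀ hc0 z
  set u' : EuclideanSpace ℝ (Fin n) → ℝ := fun a => 1 * u (c • a) with hu'
  set v' : EuclideanSpace ℝ (Fin n) → ℝ := fun a => 1 * v (c • a) with hv'
  have hcd : ∀ {f : EuclideanSpace ℝ (Fin n) → ℝ}, ContDiffAt ℝ 2 f z →
      ContDiffAt ℝ 2 (fun a => 1 * f (c • a)) y := fun {f} hf =>
    contDiffAt_const.mul ((hcy.symm ▸ hf).comp y (contDiffAt_id.const_smul c))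
  have hlap : ∀ {f : EuclideanSpace ℝ (Fin n) → ℝ}, ContDiffAt ℝ 2 f z →
      Laplacian.laplacian (fun a => 1 * f (c • a)) y = c ^ 2 * Laplacian.laplacian f z :=
    fun {f} hf => by
      rw [laplacian_const_mul_comp_smul 1 hc0 (hcy.symm ▸ hf), hcy, one_mul]
  have hg : gap p q u' v' = fun a => 1 * gap p q u v (c • a) := by
    funext a; simp [gap, hu', hv']
  have key := laplacian_gap_nonneg hq hqp (hcd hu) (hcd hv) (by simpa [hcy] using hu0)
    (by rw [hlap hu, equ, hcy, one_mul, mul_neg, ← mul_assoc, hcW, one_mul])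
    (by rw [hlap hv, eqv, hcy, one_mul, mul_neg, ← mul_assoc, hcW, one_mul])
    (by rw [hg]; simpa [hcy] using hz)
  rw [hg, hlap (contDiffAt_gap hu hv hu0.ne')] at key
  exact nonneg_of_mul_nonneg_right key (by positivity)

/-- Souplet's comparison with a common weight. -/
theorem souplet_comparisonW (hn : 3 ≤ n) (hw : -2 < w) (hw0 : w ≤ 0) (hq : 0 < q) (hqp : q ≤ p)
    (hpq : 1 < p * q) {u v : EuclideanSpace ℝ (Fin n) → ℝ} (h : IsSolW w p q u v) :
    ∀ x, v x ^ (p + 1) / (p + 1) ≤ u x ^ (q + 1) / (q + 1) := by
  have hp : 0 < p := hq.trans_le hqp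
  have hp1 : 0 < p + 1 := by linarith
  have hq1 : 0 < q + 1 := by linarith
  have key : ∀ x ≠ 0, gap p q u v x ≤ 0 := by
    intro x hx
    refine le_of_forall_pos_le_add fun δ hδ => ?_
    set ε := δ / (newton x + 1)
    have hε : 0 < ε := by have := newton_nonneg x; positivity
    set f := fun y : (EuclideanSpace ℝ (Fin n)) =>
      if y = 0 then 0 else hPos (gap p q u v y - ε * newton y) with hf
    obtain ⟨C, hC0, hC⟩ := exists_bound h.contV 1
    have hf0 : f =ᶠ[𝓝 0] fun _ => 0 := by
      filter_upwards [newton_large hn (C / ε),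
        Metric.closedBall_mem_nhds (0 : (EuclideanSpace ℝ (Fin n))) one_pos] with y hy hy1
      by_cases h0 : y = 0
      · simp [hf, h0]
      · have h1 := (gap_le (v := v) hp1 hq1 (h.posU y).le).trans (hC y (by simpa using hy1))
        have h2 := mul_le_mul_of_nonneg_left (hy h0) hε.le
        rw [mul_div_cancel₀ C hε.ne'] at h2
        simp only [hf, h0, if_false, hPos, max_eq_right (show gap p q u v y - ε * newton y ≤ 0 by
          linarith), Real.arctan_zero, sub_zero]
    have hne : ∀ y : (EuclideanSpace ℝ (Fin n)), y ≠ 0 →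
        f =ᶠ[𝓝 y] fun z => hPos (gap p q u v z - ε * newton z) :=
      fun y hy => by filter_upwards [eventually_ne_nhds hy] with z hz using if_neg hz
    have hcd : ∀ y : (EuclideanSpace ℝ (Fin n)), y ≠ 0 →
        ContDiffAt ℝ 2 (fun z => gap p q u v z - ε * newton z) y := fun y hy =>
      (contDiffAt_gap (h.contDiffAtU hy) (h.swap.contDiffAtU hy) (h.posU y).ne').sub
        (contDiffAt_const.mul (contDiffAt_newton hy))
    have hfx : f x ≤ 0 := by
      refine nonpos_of_subharmonic (contDiff_iff_contDiffAt.2 fun y => ?_) h.contV (fun y => ?_)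
        (fun y => ?_) x fun e he => exists_avg_ltW hn hw hw0 hp hq hpq h x he
      · by_cases hy : y = 0
        · subst hy; exact contDiffAt_const.congr_of_eventuallyEq hf0
        · exact ((contDiff_hPos.contDiffAt).comp y (hcd y hy)).congr_of_eventuallyEq (hne y hy)
      · by_cases hy : y = 0
        · simp only [hf, hy, if_true]; exact (h.posV 0).le
        · simp only [hf, hy, if_false]
          refine (hPos_le _).trans (max_le ?_ (h.posV y).le)
          have := gap_le (v := v) hp1 hq1 (h.posU y).le
          have := mul_nonneg hε.le (newton_nonneg y)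
          linarith
      · by_cases hy : y = 0
        · subst hy
          rw [(InnerProductSpace.laplacian_congr_nhds hf0).self_of_nhds]
          simp
        · rw [(InnerProductSpace.laplacian_congr_nhds (hne y hy)).self_of_nhds]
          refine laplacian_hPos_comp (hcd y hy) fun hz => ?_
          have h1 := laplacian_gap_nonnegW hq hqp
            (Real.rpow_pos_of_pos (norm_pos_iff.2 hy) w) (h.contDiffAtU hy)
            (h.swap.contDiffAtU hy) (h.posU y) (h.eqU y hy) (h.eqV y hy)
            (by have := mul_nonneg hε.le (newton_nonneg y); linarith)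
          have e : (fun z => gap p q u v z - ε * newton z) = gap p q u v + (-ε) • newton := by
            ext; simp; ring
          rw [e, (contDiffAt_gap (h.contDiffAtU hy) (h.swap.contDiffAtU hy)
              (h.posU y).ne').laplacian_add (f₂ := (-ε) • newton)
              ((contDiffAt_newton hy).const_smul (-ε)),
            InnerProductSpace.laplacian_smul (-ε) (contDiffAt_newton hy), laplacian_newton hy]
          simpa using h1
    simp only [hf, hx, if_false] at hfx
    have := le_of_hPos_nonpos hfx
    have : ε * newton x ≤ δ := by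
      rw [div_mul_eq_mul_div, div_le_iff₀ (by have := newton_nonneg x; linarith)]
      nlinarith
    linarith
  intro x
  by_cases hx : x = 0
  · subst hx
    have : Nontrivial (EuclideanSpace ℝ (Fin n)) := Module.nontrivial_of_finrank_pos (R := ℝ)
      (by rw [finrank_euclideanSpace_fin]; omega)
    have := Module.punctured_nhds_neBot ℝ (EuclideanSpace ℝ (Fin n))
      (0 : (EuclideanSpace ℝ (Fin n)))
    have hc : Continuous fun y => (u y) ^ (q + 1) / (q + 1) - (v y) ^ (p + 1) / (p + 1) :=
      ((h.contU.rpow_const fun _ => Or.inr hq1.le).div_const _).sub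
        ((h.contV.rpow_const fun _ => Or.inr hp1.le).div_const _)
    have hsub : ({(0 : (EuclideanSpace ℝ (Fin n)))}ᶜ : Set (EuclideanSpace ℝ (Fin n))) ⊆
        {y | (0 : ℝ) ≤ (u y) ^ (q + 1) / (q + 1) - (v y) ^ (p + 1) / (p + 1)} := fun y hy =>
      sub_nonneg.2 (le_of_gap_nonpos hp1 hq1 (h.posU y) (h.posV y) (key y hy))
    exact sub_nonneg.1 ((isClosed_le continuous_const hc).closure_subset_iff.2 hsub
      (dense_compl_singleton (0 : (EuclideanSpace ℝ (Fin n))) 0))
  · exact le_of_gap_nonpos hp1 hq1 (h.posU x) (h.posV x) (key x hx)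

end Vale.Agent.P100.SoupletW
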