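import Mathlib
import Vale.Agent.P100.Souplet.Main

/-!
# The exponents of Souplet's range in every dimension from three on

`exists_exponents` and `sliced_three` of `Souplet`, with `n ≥ 3` in place of `n ≥ 5`.
-/

open MeasureTheory Filter Set Metric Topology
open scoped ENNReal NNReal

namespace Vale.Agent.P100.SoupletW

open Souplet

/-- The choice of exponents: `A` is the amount of integrability of `v ^ p` beyond `L¹`, `B` the
one of `u ^ q`. -/
theorem exists_exponents_three {n p q : ℝ} (hn : 3 ≤ n) (hq : 0 < q) (hqp : q ≤ p) (hpq : 1 < p * q)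
    (ha : n - 3 < 2 * (p + 1) / (p * q - 1)) :
    ∃ k A B : ℝ, n - 3 < (n - 1) * k ∧ k < 1 ∧ 0 ≤ A ∧ 0 ≤ B ∧ A + B = k ∧ A < 1 ∧ B < 1 ∧
      A * (p + 1) ≤ 1 ∧ B * (q + 1) ≤ 1 ∧ k ≤ 1 / (q + 1) + A ∧ 1 / (q + 1) + A ≤ 1 ∧
      p * A * (q + 1) < 1 ∧ p * A + q * B < 1 := by
  have hp : 0 < p := hq.trans_le hqp
  have hd : 0 < p * q - 1 := by linarith
  rw [lt_div_iff₀ hd] at ha
  have hq1 : 0 < q + 1 := by linarith
  set k₀ := (n - 3) / (n - 1) with hk₀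
  set k₁ := (1 / p + 1) / (q + 1) with hk₁
  have hlt : k₀ < min k₁ 1 := by
    refine lt_min ?_ ?_
    · rw [hk₀, hk₁, div_lt_div_iff₀ (by linarith) hq1, div_add_one hp.ne', div_mul_eq_mul_div,
        lt_div_iff₀ hp]
      nlinarith
    · rw [hk₀, div_lt_one (by linarith)]; linarith
  set k := (k₀ + min k₁ 1) / 2
  have hk : k₀ < k ∧ k < k₁ ∧ k < 1 := by
    have := min_le_left k₁ 1
    have := min_le_right k₁ 1
    refine ⟨?_, ?_, ?_⟩ <;> simp only [k] <;> linarith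
  have hk0 : 0 < k := lt_of_le_of_lt (div_nonneg (by linarith) (by linarith)) hk.1
  have hkn : n - 3 < (n - 1) * k := by
    have := hk.1
    rw [hk₀, div_lt_iff₀ (by linarith)] at this
    linarith
  have hpk : p * (k * (q + 1) - 1) < 1 := by
    have h := hk.2.1
    rw [hk₁, lt_div_iff₀ hq1] at h
    have := mul_lt_mul_of_pos_left h hp
    rw [mul_add p, mul_one_div, div_self hp.ne', mul_one] at this
    linarith
  rcases le_or_gt k (1 / (q + 1)) with h | h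
  · have h' := h
    rw [le_div_iff₀ hq1] at h'
    refine ⟨k, 0, k, hkn, hk.2.2, le_rfl, hk0.le, by simp, one_pos, hk.2.2, by simp, h',
      by simpa using h, ?_, by simp, ?_⟩
    · rw [add_zero, div_le_one hq1]; linarith
    · nlinarith
  · set B := 1 / (q + 1) with hB
    have hB1 : B * (q + 1) = 1 := by rw [hB]; field_simp
    have hB0 : 0 < B := by positivity
    have hA : p * ((k - B) * (q + 1)) < 1 := by
      rw [sub_mul, hB1]; exact hpk
    refine ⟨k, k - B, B, hkn, hk.2.2, by linarith, hB0.le, by ring, by linarith,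
      by rw [hB, div_lt_one hq1]; linarith, ?_, hB1.le, by linarith, by linarith,
      by linarith, ?_⟩
    · have : 0 ≤ k - B := by linarith
      nlinarith
    · have e : q * B = 1 - B := by linarith
      rw [e]
      nlinarith

variable {n : ℕ} {q : ℝ}

/-- The exponents and constants of the three sliced estimates. -/
theorem sliced_three_low (hn : 3 ≤ n) (hq : 0 < q) {k A B : ℝ} (hkn : (n : ℝ) - 3 < ((n : ℝ) - 1) * k)
    (hk1 : k < 1) (hA0 : 0 ≤ A) (hB0 : 0 ≤ B) (hAB : A + B = k)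
    (hks : k ≤ 1 / (q + 1) + A) (hs1 : 1 / (q + 1) + A ≤ 1) :
    ∃ σu σv : ℝ, σu.HolderConjugate σv ∧ ∃ C : ℝ, 0 < C ∧
      ∀ f : EuclideanSpace ℝ (Fin n) → ℝ≥0∞, Measurable f →
        (∀ y, y ∉ closedBall (0 : EuclideanSpace ℝ (Fin n)) 4 → f y = 0) → ∀ X : ℝ, 0 ≤ X →
        ((∫⁻ y, f y ^ (1 / (1 - A))) ^ (1 - A) ≤ ENNReal.ofReal X →
          ∫⁻ ρ in Icc (1 / 2 : ℝ) 4, potNorm ((n : ℝ) - 2) (q + 1) f ρ ≤ ENNReal.ofReal (C * X) ∧
          ∫⁻ ρ in Icc (1 / 2 : ℝ) 4, potNorm ((n : ℝ) - 1) σu f ρ ≤ ENNReal.ofReal (C * X)) ∧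
        ((∫⁻ y, f y ^ (1 / (1 - B))) ^ (1 - B) ≤ ENNReal.ofReal X →
          ∫⁻ ρ in Icc (1 / 2 : ℝ) 4, potNorm ((n : ℝ) - 1) σv f ρ ≤ ENNReal.ofReal (C * X)) := by
  have hn' : (3 : ℝ) ≤ n := by exact_mod_cast hn
  have hk0 : 0 < k := by nlinarith
  set s₀ := (1 + k) / 2 with hs₀
  have hsA : 0 < s₀ - A := by rw [hs₀]; linarith
  have hsB : 0 < s₀ - B := by rw [hs₀]; linarith
  refine ⟨1 / (s₀ - A), 1 / (s₀ - B), Real.holderConjugate_iff.2 ⟨?_, ?_⟩, ?_⟩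
  · rw [one_lt_div hsA, hs₀]; linarith
  · simp only [one_div, inv_inv]; rw [hs₀]; linarith
  obtain ⟨C₁, hC₁⟩ := sliced_potNorm (n := n) (by omega) (m := (n : ℝ) - 2) (A := A)
    (s₀ := 1 / (q + 1) + A) (σ := q + 1) (by linarith) hA0
    (by have : 0 < 1 / (q + 1) := by positivity
        linarith) hs1 (by ring) (by nlinarith)
  obtain ⟨C₂, hC₂⟩ := sliced_potNorm (n := n) (by omega) (m := (n : ℝ) - 1) (A := A) (s₀ := s₀)
    (σ := 1 / (s₀ - A)) (by linarith) hA0 (by linarith) (by linarith) (by rw [one_div_one_div])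
    (by rw [hs₀]; nlinarith)
  obtain ⟨C₃, hC₃⟩ := sliced_potNorm (n := n) (by omega) (m := (n : ℝ) - 1) (A := B) (s₀ := s₀)
    (σ := 1 / (s₀ - B)) (by linarith) hB0 (by linarith) (by linarith) (by rw [one_div_one_div])
    (by rw [hs₀]; nlinarith)
  refine ⟨(C₁ : ℝ) + C₂ + C₃ + 1, by positivity, fun f hf hf0 X hX => ?_⟩
  have up : ∀ Cc : ℝ≥0, (Cc : ℝ) ≤ (C₁ : ℝ) + C₂ + C₃ + 1 →
      (Cc : ℝ≥0∞) * ENNReal.ofReal X ≤ ENNReal.ofReal (((C₁ : ℝ) + C₂ + C₃ + 1) * X) := by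
    intro Cc hle
    rw [← ENNReal.ofReal_coe_nnreal, ← ENNReal.ofReal_mul Cc.coe_nonneg]
    exact ENNReal.ofReal_le_ofReal (mul_le_mul_of_nonneg_right hle hX)
  refine ⟨fun h => ⟨?_, ?_⟩, fun h => ?_⟩
  · exact (hC₁ f hf hf0).trans ((mul_le_mul' le_rfl h).trans
      (up C₁ (by linarith [C₂.coe_nonneg, C₃.coe_nonneg])))
  · exact (hC₂ f hf hf0).trans ((mul_le_mul' le_rfl h).trans
      (up C₂ (by linarith [C₁.coe_nonneg, C₃.coe_nonneg])))
  · exact (hC₃ f hf hf0).trans ((mul_le_mul' le_rfl h).trans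
      (up C₃ (by linarith [C₁.coe_nonneg, C₂.coe_nonneg])))

end Vale.Agent.P100.SoupletW
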