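import Mathlib
import Vale.Agent.P100.Souplet.Local
import Vale.Agent.P100.UnitBound

/-!
# Local bounds for a right hand side that is continuous off the origin only

The potential bounds of `Souplet.Local` for `-Δu = f` with `f ≥ 0` continuous on the punctured
space, and from them `‖Du(x)‖ ≤ C / ‖x‖` near an origin where `u` is bounded.
-/

open MeasureTheory Set Metric Filter Topology InnerProductSpace
open scoped RealInnerProductSpace

noncomputable section

namespace Vale.Agent.P100.SoupletW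

open Souplet

variable {E : Type*} [NormedAddCommGroup E] [InnerProductSpace ℝ E] [FiniteDimensional ℝ E]
  [MeasurableSpace E] [BorelSpace E] {μ : Measure E} [μ.IsAddHaarMeasure]

/-- A continuous nonnegative function that agrees with `f` outside the ball of radius `1/2`. -/
theorem exists_extension {f : E → ℝ} (hfc : ContinuousOn f {0}ᶜ) (hf0 : ∀ y, 0 ≤ f y) :
    ∃ g : E → ℝ, Continuous g ∧ (∀ y, 0 ≤ g y) ∧ ∀ y, 1 / 2 ≤ ‖y‖ → g y = f y := by
  set χ : E → ℝ := fun y => min (max (4 * ‖y‖ - 1) 0) 1 with hχ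
  have hχc : Continuous χ := by simp only [hχ]; fun_prop
  refine ⟨fun y => χ y * f y, ?_, fun y => mul_nonneg (le_min (le_max_right _ _) zero_le_one)
    (hf0 y), fun y hy => ?_⟩
  · refine Puncture.continuous_of_supported isOpen_compl_singleton
      (hχc.continuousOn.mul hfc) ?_
    intro y hy h0
    rw [mem_singleton_iff] at h0
    subst h0
    refine notMem_tsupport_iff_eventuallyEq.2 ?_ hy
    filter_upwards [Metric.closedBall_mem_nhds (0 : E) (by norm_num : (0 : ℝ) < 1 / 4)] with z hz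
    have hz' : 4 * ‖z‖ - 1 ≤ 0 := by
      have : ‖z‖ ≤ 1 / 4 := by simpa using hz
      linarith
    simp [hχ, max_eq_right hz']
  · have : χ y = 1 := min_eq_right (le_max_of_le_left (by linarith))
    simp [this]

variable {ι : Type*} [Fintype ι] (B : OrthonormalBasis ι ℝ E)

/-- The basic inequality: Green's formula against `η k`, estimated. -/
theorem abs_integral_le_punctured {A : Set E} (hA : IsCompact A) (hA0 : A ⊆ {0}ᶜ) {η k : E → ℝ}
    (hη : ContDiff ℝ 2 η) (hk : ContDiff ℝ 2 k) (hηA : Function.support η ⊆ A)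
    (hη0 : ∀ y, 0 ≤ η y) (hη1 : ∀ y, η y ≤ 1) {u f P : E → ℝ} (hu : ContDiffOn ℝ 2 u {0}ᶜ)
    (hu0 : ∀ y, 0 ≤ u y) (hf0 : ∀ y, 0 ≤ f y)
    (heq : ∀ x, x ≠ 0 → Laplacian.laplacian u x = -(f x)) (hP : IntegrableOn P A μ)
    (hkP : ∀ᵐ y ∂μ, |k y| * f y ≤ P y) {K : ℝ}
    (hK : ∀ y ∈ A, |lapB B η y * k y + 2 * ∑ i, fderiv ℝ η y (B i) * fderiv ℝ k y (B i)| ≤ K)
    (hfc : ContinuousOn f {0}ᶜ) :
    |∫ y, η y * u y * lapB B k y ∂μ| ≤ ∫ y in A, P y ∂μ + K * ∫ y in A, u y ∂μ := by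
  have hψ : ContDiff ℝ 2 fun y => η y * k y := hη.mul hk
  have hηc : HasCompactSupport η := HasCompactSupport.intro hA fun y hy =>
    Function.notMem_support.1 fun h => hy (hηA h)
  have hηs : tsupport η ⊆ A := closure_minimal hηA hA.isClosed
  have hg := green (μ := μ) B hu heq hψ hηc.mul_right (tsupport_mul_subset_left.trans (hηs.trans hA0))
  set W : E → ℝ := fun y => lapB B η y * k y + 2 * ∑ i, fderiv ℝ η y (B i) * fderiv ℝ k y (B i)
    with hW
  have hWc : Continuous W :=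
    ((continuous_lapB B hη).mul hk.continuous).add (continuous_const.mul
      (continuous_finsetSum _ fun i _ => ((hη.continuous_fderiv (by simp)).clm_apply
        continuous_const).mul ((hk.continuous_fderiv (by simp)).clm_apply continuous_const)))
  have hW0 : ∀ y ∉ A, W y = 0 := fun y hy => by
    have h0 : η =ᶠ[𝓝 y] 0 := notMem_tsupport_iff_eventuallyEq.1 fun h => hy (hηs h)
    have h1 : ∀ e, fderiv ℝ η y e = 0 := fun e => by rw [h0.fderiv_eq]; simp
    have h2 : ∀ e, (fun z => fderiv ℝ η z e) =ᶠ[𝓝 y] 0 := fun e => by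
      filter_upwards [h0.fderiv (𝕜 := ℝ)] with z hz; simp [hz]
    have h3 : lapB B η y = 0 := Finset.sum_eq_zero fun i _ => by rw [(h2 (B i)).fderiv_eq]; simp
    simp [W, h1, h3]
  have hη0' : ∀ y ∉ A, η y = 0 := fun y hy => Function.notMem_support.1 fun h => hy (hηA h)
  have huA : ContinuousOn u A := hu.continuousOn.mono hA0
  have hAm := hA.isClosed.measurableSet
  have i1 : IntegrableOn (fun y => u y * W y) A μ :=
    (huA.mul hWc.continuousOn).integrableOn_compact hA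
  have i2 : IntegrableOn (fun y => η y * u y * lapB B k y) A μ :=
    ((hη.continuous.continuousOn.mul huA).mul
      (continuous_lapB B hk).continuousOn).integrableOn_compact hA
  have i3 : IntegrableOn (fun y => f y * (η y * k y)) A μ :=
    ((hfc.mono hA0).mul hψ.continuous.continuousOn).integrableOn_compact hA
  simp only [lapB_mul B hη hk] at hg
  rw [← setIntegral_eq_integral_of_forall_compl_eq_zero (s := A) (fun y hy => by simp [hη0' y hy])]
  rw [← setIntegral_eq_integral_of_forall_compl_eq_zero (s := A)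
      (f := fun y => f y * (η y * k y)) (fun y hy => by simp [hη0' y hy]),
    ← setIntegral_eq_integral_of_forall_compl_eq_zero (s := A) (fun y hy => by
      have := hW0 y hy
      simp only [W] at this
      rw [hη0' y hy, zero_mul, zero_add, this, mul_zero])] at hg
  have e : ∫ y in A, η y * u y * lapB B k y ∂μ =
      -∫ y in A, f y * (η y * k y) ∂μ - ∫ y in A, u y * W y ∂μ := by
    rw [eq_sub_iff_add_eq, ← integral_add i2 i1, ← hg]
    exact integral_congr_ae (Eventually.of_forall fun y => by simp only [W]; ring)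
  rw [e, ← neg_add', abs_neg, ← integral_const_mul]
  refine (abs_add_le _ _).trans (add_le_add ?_ ?_)
  · refine (Real.norm_eq_abs _).symm.trans_le (norm_integral_le_of_norm_le hP ?_)
    filter_upwards [ae_restrict_of_ae hkP] with y hy
    rw [Real.norm_eq_abs, abs_mul, abs_mul, abs_of_nonneg (hf0 y), abs_of_nonneg (hη0 y)]
    calc f y * (η y * |k y|) ≤ f y * (1 * |k y|) := by
          gcongr
          · exact hf0 y
          · exact hη1 y
      _ = |k y| * f y := by ring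
      _ ≤ P y := hy
  · refine (Real.norm_eq_abs _).symm.trans_le
      (norm_integral_le_of_norm_le (huA.integrableOn_compact hA |>.const_mul K) ?_)
    filter_upwards [ae_restrict_mem hAm] with y hy
    rw [Real.norm_eq_abs, abs_mul, abs_of_nonneg (hu0 y), mul_comm]
    exact mul_le_mul_of_nonneg_right (hK y hy) (hu0 y)

/-- The estimate of Green's formula against `η k`. -/
theorem cutTerm_punctured {d : ℕ} (B : OrthonormalBasis (Fin d) ℝ E) (hd3 : 3 ≤ d) {u f η : E → ℝ}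
    (hu0 : ∀ y, 0 ≤ u y) (hf0 : ∀ y, 0 ≤ f y) (hfc : ContinuousOn f {0}ᶜ) (hu : ContDiffOn ℝ 2 u {0}ᶜ)
    (heq : ∀ x, x ≠ 0 → Laplacian.laplacian u x = -(f x)) {r h Cc : ℝ} (hr : 1 ≤ r) (hh : 0 < h)
    (hrh : r + h ≤ 4) (hCc : 0 ≤ Cc) {x : E} (hx1 : 1 ≤ ‖x‖) (hx2 : ‖x‖ ≤ r + h / 2)
    (hAc : IsCompact {y : E | 1 / 2 ≤ ‖y‖ ∧ ‖y‖ ≤ r + h})
    (hA0 : {y : E | 1 / 2 ≤ ‖y‖ ∧ ‖y‖ ≤ r + h} ⊆ {0}ᶜ)
    (hη : ContDiff ℝ 2 η) (hη0 : ∀ y, 0 ≤ η y) (hη1 : ∀ y, η y ≤ 1)
    (hηA : Function.support η ⊆ {y | 1 / 2 ≤ ‖y‖ ∧ ‖y‖ ≤ r + h})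
    (hηone : ∀ y, 3 / 4 ≤ ‖y‖ → ‖y‖ ≤ r + 3 * h / 4 → η y = 1)
    (hηd : ∀ y, ‖y‖ ≤ 4 → ∀ i, |fderiv ℝ η y (B i)| ≤ Cc * (12 / h))
    (hηL : ∀ y, ‖y‖ ≤ 4 → |lapB B η y| ≤ Cc * (12 / h) ^ 2) :
    CutTerm μ B {y : E | 1 / 2 ≤ ‖y‖ ∧ ‖y‖ ≤ r + h} f (fun y => η y * u y) x h Cc
      (∫ y in {y : E | 1 / 2 ≤ ‖y‖ ∧ ‖y‖ ≤ r + h}, u y ∂μ) := by
  set D := 12 / h with hD
  intro k hk P hP hkP S hS0 hkS
  refine abs_integral_le_punctured B hAc hA0 hη hk hηA hη0 hη1 hu hu0 hf0 heq hP hkP (fun y hy => ?_) hfc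
  by_cases hy' : 3 / 4 < ‖y‖ ∧ ‖y‖ < r + 3 * h / 4
  · have ho : η =ᶠ[𝓝 y] fun _ => (1 : ℝ) := by
      filter_upwards [((isOpen_lt continuous_const continuous_norm).inter
        (isOpen_lt continuous_norm continuous_const)).mem_nhds hy'] with z hz
      exact hηone z hz.1.le hz.2.le
    have h1 : ∀ e, fderiv ℝ η y e = 0 := fun e => by rw [ho.fderiv_eq]; simp
    have h2 : ∀ e, (fun z => fderiv ℝ η z e) =ᶠ[𝓝 y] fun _ => (0 : ℝ) := fun e => by
      filter_upwards [ho.fderiv (𝕜 := ℝ)] with z hz; simp [hz]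
    have h3 : lapB B η y = 0 := Finset.sum_eq_zero fun i _ => by rw [(h2 (B i)).fderiv_eq]; simp
    simp only [h1, h3, zero_mul, Finset.sum_const_zero, mul_zero, add_zero, abs_zero]
    positivity
  · have hdist := dist_lower hr hh hrh hx1 hx2 hy'
    obtain ⟨k0, k1⟩ := hkS y hdist
    have hy4 : ‖y‖ ≤ 4 := hy.2.trans hrh
    refine (abs_add_le _ _).trans ?_
    rw [abs_mul, abs_mul, abs_of_pos (show (0 : ℝ) < 2 by norm_num)]
    calc |lapB B η y| * |k y| + 2 * |∑ i, fderiv ℝ η y (B i) * fderiv ℝ k y (B i)|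
        ≤ Cc * D ^ 2 * (S * D ^ (d - 1)) + 2 * ∑ _i : Fin d, Cc * D * (S * D ^ d) := by
          gcongr
          · exact hηL y hy4
          · refine (Finset.abs_sum_le_sum_abs _ _).trans (Finset.sum_le_sum fun i _ => ?_)
            rw [abs_mul]
            exact mul_le_mul (hηd y hy4 i) (k1 i) (abs_nonneg _) (by positivity)
      _ = Cc * S * (1 + 2 * (d : ℝ)) * D ^ (d + 1) := by
          simp only [Finset.sum_const, Finset.card_univ, Fintype.card_fin, nsmul_eq_mul]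
          obtain ⟨j, hj⟩ : ∃ j, d = j + 1 := ⟨d - 1, by omega⟩
          rw [hj, Nat.add_sub_cancel]
          push_cast
          ring

omit [μ.IsAddHaarMeasure] [FiniteDimensional ℝ E] [BorelSpace E] in
/-- `CutTerm` only sees the density on `A`. -/
theorem _root_.Vale.Agent.P100.Souplet.CutTerm.congr_density {d : ℕ}
    {B : OrthonormalBasis (Fin d) ℝ E} {A : Set E} {f g w : E → ℝ} {x : E} {h Cc Iu : ℝ}
    (key : CutTerm μ B A f w x h Cc Iu) (hA : MeasurableSet A) (hgf : ∀ y ∈ A, g y = f y) :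
    CutTerm μ B A g w x h Cc Iu := by
  intro k hk P hP hkP S hS hkS
  classical
  set P' : E → ℝ := fun y => if y ∈ A then P y else |k y| * f y with hP'
  have e : ∀ y ∈ A, P' y = P y := fun y hy => if_pos hy
  have hP'i : IntegrableOn P' A μ := hP.congr_fun (fun y hy => (e y hy).symm) hA
  have := key k hk hP'i ?_ S hS hkS
  · rwa [setIntegral_congr_fun hA e] at this
  · filter_upwards [hkP] with y hy
    by_cases hyA : y ∈ A
    · rw [e y hyA, ← hgf y hyA]; exact hy
    · simp [hP', hyA]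

/-- Local potential bounds, punctured right hand side. -/
theorem local_bounds_punctured' (hn : 3 ≤ Module.finrank ℝ E) :
    ∃ C : ℝ, 0 ≤ C ∧ ∀ u f : E → ℝ, (∀ x, 0 ≤ u x) → (∀ x, 0 ≤ f x) → ContinuousOn f {0}ᶜ →
      ContDiffOn ℝ 2 u {0}ᶜ →
      (∀ x, x ≠ 0 → Laplacian.laplacian u x = -(f x)) →
      ∀ r h : ℝ, 1 ≤ r → 0 < h → r + h ≤ 4 → ∀ x : E, 1 ≤ ‖x‖ → ‖x‖ ≤ r + h / 2 →
        u x ≤ C * (∫ y in {y : E | 1 / 2 ≤ ‖y‖ ∧ ‖y‖ ≤ r + h},
              ‖x - y‖ ^ (2 - (Module.finrank ℝ E : ℝ)) * f y ∂μ) +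
            C * h ^ (-((Module.finrank ℝ E : ℝ) + 1)) *
              (∫ y in {y : E | 1 / 2 ≤ ‖y‖ ∧ ‖y‖ ≤ r + h}, u y ∂μ) ∧
        ‖fderiv ℝ u x‖ ≤ C * (∫ y in {y : E | 1 / 2 ≤ ‖y‖ ∧ ‖y‖ ≤ r + h},
              ‖x - y‖ ^ (1 - (Module.finrank ℝ E : ℝ)) * f y ∂μ) +
            C * h ^ (-((Module.finrank ℝ E : ℝ) + 1)) *
              (∫ y in {y : E | 1 / 2 ≤ ‖y‖ ∧ ‖y‖ ≤ r + h}, u y ∂μ) := by
  classical
  let B := stdOrthonormalBasis ℝ E
  set d := Module.finrank ℝ E with hd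
  have hcard : (Fintype.card (Fin d) : ℝ) = d := by simp
  set N : ℝ := (d : ℝ) with hN
  have hN3 : 3 ≤ N := by rw [hN]; exact_mod_cast hn
  obtain ⟨Cc, hCc, hcut⟩ := exists_cut (E := E) B
  have hM := bumpMass_pos (μ := μ)
  set den : ℝ := N * (N - 2) * bumpMass μ with hden
  have hden0 : 0 < den := by rw [hden]; exact mul_pos (mul_pos (by linarith) (by linarith)) hM
  set K : ℝ := Cc * 12 ^ (d + 1) * (1 + 2 * N * ((N + 1) * (N + 2))) * (N + 1) with hK
  refine ⟨(N + K) / den, by positivity,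
    fun u f hu0 hf0 hfc hu heq r h hr hh hrh x hx1 hx2 => ?_⟩
  set A : Set E := {y : E | 1 / 2 ≤ ‖y‖ ∧ ‖y‖ ≤ r + h} with hA
  have hAc : IsCompact A := by
    refine Metric.isCompact_of_isClosed_isBounded ?_ ?_
    · exact (isClosed_le continuous_const continuous_norm).inter
        (isClosed_le continuous_norm continuous_const)
    · exact (isBounded_closedBall (x := (0 : E)) (r := r + h)).subset fun y hy => by
        simpa using hy.2
  have hA0 : A ⊆ {0}ᶜ := fun y hy h0 => by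
    have := hy.1
    rw [mem_singleton_iff.1 h0, norm_zero] at this
    norm_num at this
  obtain ⟨η, hη, hη0, hη1, hηA, hηone, hηd, hηL⟩ := hcut r h hr hh hrh
  set D := 12 / h with hD
  have hD1 : 1 ≤ D := by rw [hD, le_div_iff₀ hh]; linarith
  set Iu := ∫ y in A, u y ∂μ with hIu
  have hIu0 : 0 ≤ Iu := integral_nonneg fun y => hu0 y
  have hx0 : x ≠ 0 := norm_pos_iff.1 (by linarith)
  have near : ∀ᶠ y in 𝓝 x, η y = 1 := by
    have ho : IsOpen {y : E | 3 / 4 < ‖y‖ ∧ ‖y‖ < r + 3 * h / 4} :=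
      (isOpen_lt continuous_const continuous_norm).inter (isOpen_lt continuous_norm continuous_const)
    filter_upwards [ho.mem_nhds (show x ∈ _ from ⟨by linarith, by linarith⟩)] with y hy
    exact hηone y hy.1.le hy.2.le
  set w : E → ℝ := fun y => η y * u y with hw
  have hwA : Function.support w ⊆ A := (Function.support_mul_subset_left _ _).trans hηA
  have hwcs : HasCompactSupport w := HasCompactSupport.intro hAc fun y hy =>
    Function.notMem_support.1 fun h => hy (hwA h)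
  have hw1 : ContDiff ℝ 1 w := by
    refine contDiff_iff_contDiffAt.2 fun y => ?_
    by_cases hy : y ∈ A
    · exact (hη.of_le one_le_two).contDiffAt.mul
        ((hu.of_le one_le_two).contDiffAt (isOpen_compl_singleton.mem_nhds (hA0 hy)))
    · refine contDiffAt_const (c := (0 : ℝ)).congr_of_eventuallyEq ?_
      filter_upwards [hAc.isClosed.isOpen_compl.mem_nhds hy] with z hz
      exact Function.notMem_support.1 fun h => hz (hwA h)
  have key₀ := cutTerm_punctured (μ := μ) B hn hu0 hf0 hfc hu heq hr hh hrh hCc hx1 hx2 hAc hA0 hη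
    hη0 hη1 hηA hηone hηd hηL
  obtain ⟨g, hgc, hg0, hgA⟩ := exists_extension hfc hf0
  have hgA' : ∀ y ∈ A, g y = f y := fun y hy => hgA y hy.1
  have key := key₀.congr_density hAc.isClosed.measurableSet hgA'
  have val := value_bound (μ := μ) hn B key hh hD1 hAc hgc hg0 hu0 hw1 hwcs
    (by simp [near.self_of_nhds])
  have grad := fun v => deriv_bound (u := u) (μ := μ) hn B key hh hD1 hAc hgc hg0 hw1 hwcs
    (Filter.EventuallyEq.fderiv_eq (by filter_upwards [near] with y hy; simp [hy])) v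
  have eI : ∀ a : ℝ, ∫ y in A, ‖x - y‖ ^ a * g y ∂μ = ∫ y in A, ‖x - y‖ ^ a * f y ∂μ := fun a =>
    setIntegral_congr_fun hAc.isClosed.measurableSet fun y hy => by simp only [hgA' y hy]
  rw [eI] at val
  have hA' : ∀ {P : E → ℝ}, (∀ y, 0 ≤ P y) → 0 ≤ ∫ y in A, P y ∂μ := fun hP =>
    integral_nonneg fun y => hP y
  set P₀ : E → ℝ := fun y => ‖x - y‖ ^ (2 - N) * f y with hP₀
  set P₁ : E → ℝ := fun y => ‖x - y‖ ^ (1 - N) * f y with hP₁
  set G := (∫ y in A, P₁ y ∂μ) + Cc * (N + 1) * (1 + 2 * N) * D ^ (d + 1) * Iu with hG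
  have hP₁0 : ∀ y, 0 ≤ P₁ y := fun y => mul_nonneg (Real.rpow_nonneg (norm_nonneg _) _) (hf0 y)
  have hP₀0 : ∀ y, 0 ≤ P₀ y := fun y => mul_nonneg (Real.rpow_nonneg (norm_nonneg _) _) (hf0 y)
  -- constants
  have hh' : D ^ (d + 1) = 12 ^ (d + 1) * h ^ (-(N + 1)) := by
    rw [hD, div_pow, Real.rpow_neg hh.le, div_eq_mul_inv, hN,
      show (d : ℝ) + 1 = ((d + 1 : ℕ) : ℝ) by push_cast; ring, Real.rpow_natCast]
  have hhp : 0 ≤ h ^ (-(N + 1)) * Iu := by positivity
  have hCK : ∀ a : ℝ, 0 ≤ a → a ≤ (N + 1) * (N + 2) →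
      Cc * a * (1 + 2 * N) * 12 ^ (d + 1) ≤ K := by
    intro a ha ha2
    rw [hK]
    have : (1 + 2 * N) * a ≤ (1 + 2 * N * ((N + 1) * (N + 2))) * (N + 1) := by
      nlinarith [mul_le_mul_of_nonneg_left ha2 (by linarith : (0 : ℝ) ≤ 1 + 2 * N),
        mul_nonneg (mul_nonneg (by linarith : (0 : ℝ) ≤ N) (by linarith : (0 : ℝ) ≤ N + 1))
          (by linarith : (0 : ℝ) ≤ N + 2)]
    calc Cc * a * (1 + 2 * N) * 12 ^ (d + 1) = Cc * 12 ^ (d + 1) * ((1 + 2 * N) * a) := by ring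
      _ ≤ Cc * 12 ^ (d + 1) * ((1 + 2 * N * ((N + 1) * (N + 2))) * (N + 1)) :=
          mul_le_mul_of_nonneg_left this (by positivity)
      _ = _ := by ring
  have hfin : ∀ (I : ℝ), 0 ≤ I → ∀ {R : ℝ}, den * R ≤ N * I + K * (h ^ (-(N + 1)) * Iu) →
      R ≤ (N + K) / den * I + (N + K) / den * h ^ (-(N + 1)) * Iu := by
    intro I hI R hR
    rw [div_mul_eq_mul_div, div_mul_eq_mul_div, div_mul_eq_mul_div, ← add_div, le_div_iff₀ hden0]
    have : 0 ≤ K * I := by positivity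
    have : 0 ≤ N * (h ^ (-(N + 1)) * Iu) := by positivity
    linarith
  refine ⟨hfin _ (hA' hP₀0) ?_, ?_⟩
  · have h1 := mul_le_mul_of_nonneg_right (hCK N (by linarith) (by nlinarith)) hhp
    have := mul_le_mul_of_nonneg_right (show (1 : ℝ) ≤ N by linarith) (hA' hP₀0)
    rw [hh'] at val
    linarith
  · refine ContinuousLinearMap.opNorm_le_bound _ (by have := hA' hP₁0; positivity) fun v => ?_
    have hG' : (N - 2) * G ≤ N * (∫ y in A, P₁ y ∂μ) + K * (h ^ (-(N + 1)) * Iu) := by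
      have h1 := mul_le_mul_of_nonneg_right (hCK ((N - 2) * (N + 1))
        (mul_nonneg (by linarith) (by linarith)) (by nlinarith)) hhp
      have := hA' hP₁0
      rw [hG, hh']
      linarith
    rcases eq_or_ne v 0 with rfl | hv
    · simp
    have hv0 : 0 < ‖v‖ := norm_pos_iff.2 hv
    rw [← div_le_iff₀ hv0]
    refine hfin _ (hA' hP₁0) ?_
    rw [mul_div_assoc', div_le_iff₀ hv0]
    have := mul_le_mul_of_nonneg_left hG' hv0.le
    have hgv := grad v
    rw [eI] at hgv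
    linarith

theorem integrableOn_kernel {n : ℕ} (hn : 3 ≤ n) (x : EuclideanSpace ℝ (Fin n)) :
    IntegrableOn (fun y => ‖x - y‖ ^ (1 - (n : ℝ))) (closedBall (0 : EuclideanSpace ℝ (Fin n)) 4) := by
  have hn' : (3 : ℝ) ≤ n := by exact_mod_cast hn
  have hi := integrableOn_pot (μ := (volume : Measure (EuclideanSpace ℝ (Fin n))))
    (by rw [finrank_euclideanSpace_fin]; omega)
    (isCompact_closedBall (0 : EuclideanSpace ℝ (Fin n)) 4)
    (continuous_const (y := (1 : ℝ))) x (m := (n : ℝ) - 1)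
    (by rw [finrank_euclideanSpace_fin]; linarith)
  exact hi.congr_fun (fun y _ => by simp) isClosed_closedBall.measurableSet

/-- The integral of `|z - y| ^ (1 - n)` over a bounded set, uniformly in `z`. -/
theorem exists_kernel_mass {n : ℕ} (hn : 3 ≤ n) :
    ∃ J : ℝ, 0 ≤ J ∧ ∀ (A : Set (EuclideanSpace ℝ (Fin n))) (z : EuclideanSpace ℝ (Fin n)),
      MeasurableSet A → A ⊆ closedBall 0 2 → ‖z‖ ≤ 2 →
      ∫ y in A, ‖z - y‖ ^ (1 - (n : ℝ)) ≤ J := by
  set B := closedBall (0 : EuclideanSpace ℝ (Fin n)) 4 with hB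
  set k : EuclideanSpace ℝ (Fin n) → ℝ := fun z => ‖z‖ ^ (1 - (n : ℝ)) with hk
  have hkB : IntegrableOn k B :=
    (integrableOn_kernel hn 0).congr_fun (fun y _ => by simp [hk]) isClosed_closedBall.measurableSet
  refine ⟨∫ z in B, k z, integral_nonneg fun z => by positivity, fun A z hAm hA hz => ?_⟩
  rw [← integral_indicator hAm, ← integral_indicator isClosed_closedBall.measurableSet,
    ← integral_sub_left_eq_self (fun y => B.indicator k y)
      (volume : Measure (EuclideanSpace ℝ (Fin n))) z]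
  refine integral_mono_of_nonneg
    (Eventually.of_forall fun y => indicator_nonneg (fun a _ => by positivity) y)
    ((hkB.integrable_indicator isClosed_closedBall.measurableSet).comp_sub_left z)
    (Eventually.of_forall fun y => ?_)
  refine indicator_apply_le' (fun hy => ?_)
    (fun _ => indicator_nonneg (fun a _ => by positivity) _)
  have hzy : z - y ∈ B := by
    rw [hB, mem_closedBall, dist_zero_right]
    have : ‖y‖ ≤ 2 := by simpa using hA hy
    linarith [norm_sub_le z y]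
  show _ ≤ B.indicator k (z - y)
  rw [indicator_of_mem hzy]

/-- **Gradient near the origin.** A bounded nonnegative `u` with `0 ≤ -Δu ≤ C / |x|²` has
`|x| ‖Du(x)‖` bounded. -/
theorem fderiv_near_zero {n : ℕ} (hn : 3 ≤ n) :
    ∃ C : ℝ, 0 ≤ C ∧ ∀ u f : EuclideanSpace ℝ (Fin n) → ℝ, (∀ x, 0 ≤ u x) → (∀ x, 0 ≤ f x) →
      ContinuousOn f {0}ᶜ → ContDiffOn ℝ 2 u {0}ᶜ →
      (∀ x, x ≠ 0 → Laplacian.laplacian u x = -(f x)) → ∀ Mu Mf : ℝ, 0 ≤ Mu → 0 ≤ Mf →
      (∀ y, ‖y‖ ≤ 2 → u y ≤ Mu) → (∀ y, y ≠ 0 → ‖y‖ ≤ 2 → f y * ‖y‖ ^ 2 ≤ Mf) →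
      ∀ x, x ≠ 0 → ‖x‖ ≤ 1 → ‖fderiv ℝ u x‖ * ‖x‖ ≤ C * (Mu + Mf) := by
  obtain ⟨C, hC, hloc⟩ := local_bounds_punctured'
    (μ := (volume : Measure (EuclideanSpace ℝ (Fin n))))
    (by rw [finrank_euclideanSpace_fin]; exact hn)
  simp only [finrank_euclideanSpace_fin] at hloc
  have hn' : (3 : ℝ) ≤ n := by exact_mod_cast hn
  set A : Set (EuclideanSpace ℝ (Fin n)) := {y | 1 / 2 ≤ ‖y‖ ∧ ‖y‖ ≤ 1 + 1} with hA
  have hAm : MeasurableSet A :=
    ((isClosed_le continuous_const continuous_norm).inter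
      (isClosed_le continuous_norm continuous_const)).measurableSet
  obtain ⟨J, hJ0, hker⟩ := exists_kernel_mass hn
  refine ⟨C * (4 * J + volume.real A), by positivity, ?_⟩
  intro u f hu0 hf0 hfc hu heq Mu Mf hMu hMf huM hfM x hx hx1
  set ρ := ‖x‖ with hρ
  have hρ0 : 0 < ρ := norm_pos_iff.2 hx
  set u' : EuclideanSpace ℝ (Fin n) → ℝ := fun y => 1 * u (ρ • y) with hu'
  set f' : EuclideanSpace ℝ (Fin n) → ℝ := fun y => ρ ^ 2 * f (ρ • y) with hf'
  have hne : ∀ y : EuclideanSpace ℝ (Fin n), y ≠ 0 → ρ • y ∈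
      ({0}ᶜ : Set (EuclideanSpace ℝ (Fin n))) := fun y hy => smul_ne_zero hρ0.ne' hy
  have hnr : ∀ y : EuclideanSpace ℝ (Fin n), ‖ρ • y‖ = ρ * ‖y‖ := fun y => by
    rw [norm_smul, Real.norm_of_nonneg hρ0.le]
  set z := ρ⁻¹ • x with hz
  have hz1 : ‖z‖ = 1 := by
    rw [hz, norm_smul, norm_inv, Real.norm_of_nonneg hρ0.le, ← hρ, inv_mul_cancel₀ hρ0.ne']
  have hzx : ρ • z = x := smul_inv_smul₀ hρ0.ne' x
  obtain ⟨-, hd⟩ := hloc u' f' (fun y => mul_nonneg zero_le_one (hu0 _))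
    (fun y => mul_nonneg (sq_nonneg _) (hf0 _))
    (continuousOn_const.mul (hfc.comp (continuous_const_smul ρ).continuousOn fun y hy => hne y hy))
    (contDiffOn_const.mul (hu.comp (contDiff_id.const_smul ρ).contDiffOn fun y hy => hne y hy))
    (fun y hy => by
      rw [hu', laplacian_const_mul_comp_smul 1 hρ0.ne'
        (hu.contDiffAt (isOpen_compl_singleton.mem_nhds (hne y hy))), heq _ (hne y hy)]
      simp [hf'])
    1 1 le_rfl one_pos (by norm_num) z hz1.ge (by rw [hz1]; norm_num)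
  have hdu : ‖fderiv ℝ u' z‖ = ρ * ‖fderiv ℝ u x‖ := by
    have h0 : HasFDerivAt u (fderiv ℝ u x) (ρ • z) := by
      rw [hzx]
      exact ((hu.contDiffAt (isOpen_compl_singleton.mem_nhds hx)).differentiableAt
        two_ne_zero).hasFDerivAt
    have h1 : HasFDerivAt u' (ρ • fderiv ℝ u x) z := by
      refine ((h0.comp z ((hasFDerivAt_id z).const_smul ρ)).const_mul 1).congr_fderiv ?_
      ext a
      simp
    rw [h1.fderiv, norm_smul, Real.norm_of_nonneg hρ0.le]
  rw [hdu, Real.one_rpow, mul_one] at hd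
  have hfA : ∀ y ∈ A, f' y ≤ 4 * Mf := by
    intro y hy
    have hy0 : 1 / 2 ≤ ‖y‖ := hy.1
    have h := hfM (ρ • y) (hne y (norm_pos_iff.1 (by linarith))) (by
      rw [hnr]
      have := hy.2
      nlinarith [norm_nonneg y])
    rw [hnr, mul_pow] at h
    have h2 : (1 : ℝ) ≤ 4 * ‖y‖ ^ 2 := by nlinarith
    have h3 : 0 ≤ ρ ^ 2 * f (ρ • y) := mul_nonneg (sq_nonneg _) (hf0 _)
    simp only [hf']
    nlinarith [mul_le_mul_of_nonneg_left h2 h3]
  have hA2 : A ⊆ closedBall 0 2 := fun y hy => by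
    rw [mem_closedBall, dist_zero_right]
    linarith [hy.2]
  have hAB : A ⊆ closedBall 0 4 := hA2.trans (closedBall_subset_closedBall (by norm_num))
  have hfin : volume A < ⊤ :=
    (measure_mono hAB).trans_lt measure_closedBall_lt_top
  have b1 : ∫ y in A, ‖z - y‖ ^ (1 - (n : ℝ)) * f' y ≤ 4 * Mf * J := by
    have hi : IntegrableOn (fun y => ‖z - y‖ ^ (1 - (n : ℝ))) A :=
      (integrableOn_kernel hn z).mono_set hAB
    refine le_trans (integral_mono_of_nonneg (ae_of_all _ fun y => mul_nonneg (by positivity)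
      (mul_nonneg (sq_nonneg _) (hf0 _))) (hi.const_mul (4 * Mf)) ?_) ?_
    · filter_upwards [ae_restrict_mem hAm] with y hy
      rw [mul_comm (4 * Mf)]
      exact mul_le_mul_of_nonneg_left (hfA y hy) (by positivity)
    · rw [integral_const_mul]
      exact mul_le_mul_of_nonneg_left (hker A z hAm hA2 (by rw [hz1]; norm_num)) (by positivity)
  have b2 : ∫ y in A, u' y ≤ volume.real A * Mu := by
    refine (le_abs_self _).trans (le_of_le_of_eq (le_trans (le_of_eq (Real.norm_eq_abs _).symm)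
      (norm_setIntegral_le_of_norm_le_const hfin (C := Mu) fun y hy => ?_)) (mul_comm _ _))
    simp only [hu', one_mul, Real.norm_eq_abs, abs_of_nonneg (hu0 _)]
    refine huM _ ?_
    rw [hnr]
    have := hy.2
    nlinarith [norm_nonneg y]
  rw [mul_comm ρ] at hd
  refine (hd.trans (add_le_add (mul_le_mul_of_nonneg_left b1 hC)
    (mul_le_mul_of_nonneg_left b2 hC))).trans ?_
  have h1 : C * (4 * Mf * J) ≤ C * (4 * J) * (Mu + Mf) := by
    rw [show C * (4 * Mf * J) = C * (4 * J) * Mf by ring]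
    exact mul_le_mul_of_nonneg_left (by linarith) (by positivity)
  have h2 : C * (volume.real A * Mu) ≤ C * volume.real A * (Mu + Mf) := by
    rw [← mul_assoc]
    exact mul_le_mul_of_nonneg_left (by linarith) (by positivity)
  calc _ ≤ C * (4 * J) * (Mu + Mf) + C * volume.real A * (Mu + Mf) := add_le_add h1 h2
    _ = _ := by ring

end Vale.Agent.P100.SoupletW
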