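import Mathlib
import Vale.Agent.P100.Souplet.Main
import Vale.Agent.P100.SoupletW.Exponents
import Vale.Agent.P100.SoupletW.L1
import Vale.Agent.P100.SoupletW.Comparison
import Vale.Agent.P100.SoupletW.Radii

/-!
# No solutions with a common weight when `max (α, β) > n - 3`

Souplet's range for `-Δu = ‖x‖ ^ w v ^ p`, `-Δv = ‖x‖ ^ w u ^ q`, `w ∈ (-2, 0]`: the local
estimates live on `1/2 ≤ ‖x‖ ≤ 4`, where the weight is bounded above and below.
-/

open MeasureTheory Filter Set Metric Topology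
open scoped ENNReal NNReal

namespace Vale.Agent.P100.SoupletW

open Souplet

variable {n : ℕ} {w₀ p q : ℝ}

/-- The potential bounds for both components, with the weight absorbed in the constant. -/
theorem localW (hn : 3 ≤ n) (hw0 : w₀ ≤ 0) :
    ∃ C M : ℝ, 0 ≤ C ∧ 0 ≤ M ∧ ∀ u v : EuclideanSpace ℝ (Fin n) → ℝ, IsSolW w₀ p q u v →
      (∀ r h : ℝ, 1 ≤ r → 0 < h → r + h ≤ 4 → ∀ x, 1 ≤ ‖x‖ → ‖x‖ ≤ r + h / 2 →
        u x ≤ C * (∫ y in ann n (r + h), ‖x - y‖ ^ (2 - (n : ℝ)) * v y ^ p) +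
            C * h ^ (-M) * (∫ y in ann n (r + h), u y) ∧
        ‖fderiv ℝ u x‖ ≤ C * (∫ y in ann n (r + h), ‖x - y‖ ^ (1 - (n : ℝ)) * v y ^ p) +
            C * h ^ (-M) * (∫ y in ann n (r + h), u y)) ∧
      (∀ r h : ℝ, 1 ≤ r → 0 < h → r + h ≤ 4 → ∀ x, 1 ≤ ‖x‖ → ‖x‖ ≤ r + h / 2 →
        v x ≤ C * (∫ y in ann n (r + h), ‖x - y‖ ^ (2 - (n : ℝ)) * u y ^ q) +
            C * h ^ (-M) * (∫ y in ann n (r + h), v y) ∧
        ‖fderiv ℝ v x‖ ≤ C * (∫ y in ann n (r + h), ‖x - y‖ ^ (1 - (n : ℝ)) * u y ^ q) +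
            C * h ^ (-M) * (∫ y in ann n (r + h), v y)) := by
  obtain ⟨C, hC, hloc⟩ := local_bounds_punctured'
    (μ := (volume : Measure (EuclideanSpace ℝ (Fin n))))
    (by rw [finrank_euclideanSpace_fin]; exact hn)
  simp only [finrank_euclideanSpace_fin] at hloc
  have hn' : (3 : ℝ) ≤ n := by exact_mod_cast hn
  set c : ℝ := (1 / 2) ^ w₀ with hc
  have hc1 : 1 ≤ c := Real.one_le_rpow_of_pos_of_le_one_of_nonpos (by norm_num) (by norm_num) hw0
  refine ⟨C * c, (n : ℝ) + 1, by positivity, by positivity, fun u v h => ?_⟩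
  have one : ∀ {p' q' : ℝ} {u' v' : EuclideanSpace ℝ (Fin n) → ℝ}, IsSolW w₀ p' q' u' v' →
      ∀ r t : ℝ, 1 ≤ r → 0 < t → r + t ≤ 4 → ∀ x, 1 ≤ ‖x‖ → ‖x‖ ≤ r + t / 2 →
        u' x ≤ C * c * (∫ y in ann n (r + t), ‖x - y‖ ^ (2 - (n : ℝ)) * v' y ^ p') +
            C * c * t ^ (-((n : ℝ) + 1)) * (∫ y in ann n (r + t), u' y) ∧
        ‖fderiv ℝ u' x‖ ≤ C * c * (∫ y in ann n (r + t), ‖x - y‖ ^ (1 - (n : ℝ)) * v' y ^ p') +
            C * c * t ^ (-((n : ℝ) + 1)) * (∫ y in ann n (r + t), u' y) := by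
    intro p' q' u' v' h' r t hr ht hrt x hx1 hx2
    obtain ⟨l1, l2⟩ := hloc u' (fun y => ‖y‖ ^ w₀ * v' y ^ p') (fun y => (h'.posU y).le)
      (fun y => mul_nonneg (by positivity) (Real.rpow_nonneg (h'.posV y).le _))
      ((contDiffOn_wRad w₀).continuousOn.mul
        (h'.contV.rpow_const fun y => Or.inl (h'.posV y).ne').continuousOn)
      h'.smoothU h'.eqU r t hr ht hrt x hx1 hx2
    have hu0 : 0 ≤ ∫ y in ann n (r + t), u' y :=
      setIntegral_nonneg (measurableSet_ann n _) fun y _ => (h'.posU y).le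
    have hI : ∀ a : ℝ, (a = 2 ∨ a = 1) →
        C * (∫ y in ann n (r + t), ‖x - y‖ ^ (a - (n : ℝ)) * (‖y‖ ^ w₀ * v' y ^ p')) ≤
          C * c * ∫ y in ann n (r + t), ‖x - y‖ ^ (a - (n : ℝ)) * v' y ^ p' := by
      intro a ha
      rw [mul_assoc, ← integral_const_mul c]
      refine mul_le_mul_of_nonneg_left (integral_mono_of_nonneg (ae_of_all _ fun y =>
        mul_nonneg (by positivity) (mul_nonneg (by positivity)
          (Real.rpow_nonneg (h'.posV y).le _))) ?_ ?_) hC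
      · have := integrableOn_pot (μ := (volume : Measure (EuclideanSpace ℝ (Fin n))))
          (by rw [finrank_euclideanSpace_fin]; omega) (isCompact_ann n (r + t))
          (Continuous.rpow_const (p := p') h'.contV fun y => Or.inl (h'.posV y).ne') x (m := (n : ℝ) - a)
          (by rw [finrank_euclideanSpace_fin]; rcases ha with rfl | rfl <;> linarith)
        simp only [neg_sub] at this
        exact this.const_mul c
      · filter_upwards [ae_restrict_mem (measurableSet_ann n (r + t))] with y hy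
        rw [mul_left_comm c]
        refine mul_le_mul_of_nonneg_left (mul_le_mul_of_nonneg_right ?_
          (Real.rpow_nonneg (h'.posV y).le _)) (by positivity)
        exact Real.rpow_le_rpow_of_nonpos (by norm_num) hy.1 hw0
    have hU : C * t ^ (-((n : ℝ) + 1)) * (∫ y in ann n (r + t), u' y) ≤
        C * c * t ^ (-((n : ℝ) + 1)) * (∫ y in ann n (r + t), u' y) :=
      mul_le_mul_of_nonneg_right (mul_le_mul_of_nonneg_right (le_mul_of_one_le_right hC hc1)
        (Real.rpow_nonneg ht.le _)) hu0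
    exact ⟨l1.trans (add_le_add (hI 2 (Or.inl rfl)) hU),
      l2.trans (add_le_add (hI 1 (Or.inr rfl)) hU)⟩
  exact ⟨one h, one h.swap⟩

/-- The integral of the top power on the annulus is at most the energy of the ball. -/
theorem lintegral_top_leW {u v : EuclideanSpace ℝ (Fin n) → ℝ} (h : IsSolW w₀ p q u v) {s b : ℝ}
    (hs : 0 < s) {w : EuclideanSpace ℝ (Fin n) → ℝ} (hw : Continuous w) (hw0 : ∀ y, 0 < w y)
    (hle : ∀ y, w y ^ (s + 1) ≤ energy p q u v y) :
    ∫⁻ y, annFun (fun z => w z ^ s) b y ^ ((s + 1) / s) ≤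
      ENNReal.ofReal (∫ y in closedBall (0 : EuclideanSpace ℝ (Fin n)) b, energy p q u v y) := by
  rw [lintegral_annFun_rpow (hw.rpow_const fun y => Or.inr hs.le)
    (fun y => Real.rpow_nonneg (hw0 y).le _) _ (by positivity)]
  refine ENNReal.ofReal_le_ofReal ?_
  have hint : IntegrableOn (energy p q u v) (closedBall 0 b) :=
    h.continuous_energy.continuousOn.integrableOn_compact (isCompact_closedBall _ _)
  have hsub : ann n b ⊆ closedBall 0 b := fun y hy => by simpa using hy.2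
  refine le_trans ?_ (setIntegral_mono_set hint (ae_of_all _ h.energy_nonneg)
    (LE.le.eventuallyLE hsub))
  refine setIntegral_mono_on ?_ (hint.mono_set hsub) (measurableSet_ann n _) fun y _ => ?_
  · exact ((hw.rpow_const fun y => Or.inr hs.le).rpow_const fun y => Or.inr
      (by positivity)).continuousOn.integrableOn_compact (isCompact_ann n _)
  · show (w y ^ s) ^ ((s + 1) / s) ≤ _
    rw [← Real.rpow_mul (hw0 y).le, mul_div_cancel₀ _ hs.ne']
    exact hle y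

/-- The local bounds for one component, as extended nonnegative numbers. -/
theorem sol_pointwiseW {CB CA M c : ℝ} (hn : 3 ≤ n) (hCB : 0 ≤ CB) (hc : c = 8 * CB + CB)
    {u v : EuclideanSpace ℝ (Fin n) → ℝ} (h : IsSolW w₀ p q u v)
    (hloc : ∀ r h : ℝ, 1 ≤ r → 0 < h → r + h ≤ 4 → ∀ x, 1 ≤ ‖x‖ → ‖x‖ ≤ r + h / 2 →
        u x ≤ CB * (∫ y in ann n (r + h), ‖x - y‖ ^ (2 - (n : ℝ)) * v y ^ p) +
            CB * h ^ (-M) * (∫ y in ann n (r + h), u y) ∧
        ‖fderiv ℝ u x‖ ≤ CB * (∫ y in ann n (r + h), ‖x - y‖ ^ (1 - (n : ℝ)) * v y ^ p) +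
            CB * h ^ (-M) * (∫ y in ann n (r + h), u y))
    (hu : (∫ y in closedBall (0 : EuclideanSpace ℝ (Fin n)) 4, u y) ≤ CA)
    {r hh : ℝ} (hr : 1 ≤ r) (hh0 : 0 < hh) (hrh : r + hh ≤ 2)
    {x : EuclideanSpace ℝ (Fin n)} (hx1 : 1 ≤ ‖x‖) (hx2 : ‖x‖ ≤ r + hh / 2) :
    ENNReal.ofReal (u x) ≤ ENNReal.ofReal c *
        pot ((n : ℝ) - 2) (annFun (fun y => v y ^ p) (r + hh)) x +
          ENNReal.ofReal (CB * hh ^ (-M) * CA) ∧
    ENNReal.ofReal (u x) ≤ ENNReal.ofReal c *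
        pot ((n : ℝ) - 1) (annFun (fun y => v y ^ p) (r + hh)) x +
          ENNReal.ofReal (CB * hh ^ (-M) * CA) ∧
    ENNReal.ofReal ‖fderiv ℝ u x‖ ≤ ENNReal.ofReal c *
        pot ((n : ℝ) - 1) (annFun (fun y => v y ^ p) (r + hh)) x +
          ENNReal.ofReal (CB * hh ^ (-M) * CA) := by
  have hn' : (3 : ℝ) ≤ n := by exact_mod_cast hn
  have hg0 : ∀ y, 0 ≤ v y ^ p := fun y => Real.rpow_nonneg (h.posV y).le _
  have hwA : (∫ y in ann n (r + hh), u y) ≤ CA := (setIntegral_mono_set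
    (h.contU.continuousOn.integrableOn_compact (isCompact_closedBall _ 4))
    (ae_of_all _ fun y => (h.posU y).le) (LE.le.eventuallyLE fun y hy => by
      have := hy.2
      rw [mem_closedBall, dist_zero_right]
      linarith)).trans hu
  have hgen : ∀ (val m : ℝ),
      val ≤ CB * (∫ y in ann n (r + hh), ‖x - y‖ ^ (-m) * v y ^ p) +
        CB * hh ^ (-M) * (∫ y in ann n (r + hh), u y) →
      ENNReal.ofReal val ≤ ENNReal.ofReal CB * pot m (annFun (fun y => v y ^ p) (r + hh)) x +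
        ENNReal.ofReal (CB * hh ^ (-M) * CA) := by
    intro val m hle
    refine (ENNReal.ofReal_le_ofReal hle).trans (ENNReal.ofReal_add_le.trans ?_)
    refine add_le_add ?_ (ENNReal.ofReal_le_ofReal
      (mul_le_mul_of_nonneg_left hwA (by positivity)))
    rw [ENNReal.ofReal_mul hCB]
    exact mul_le_mul' le_rfl (ofReal_integral_le_pot m _ hg0 x)
  have cle : ENNReal.ofReal CB ≤ ENNReal.ofReal c :=
    ENNReal.ofReal_le_ofReal (by rw [hc]; linarith)
  have up : ENNReal.ofReal CB * pot ((n : ℝ) - 2) (annFun (fun y => v y ^ p) (r + hh)) x ≤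
      ENNReal.ofReal c * pot ((n : ℝ) - 1) (annFun (fun y => v y ^ p) (r + hh)) x := by
    refine (mul_le_mul' le_rfl (pot_le_succ (by linarith) (by linarith) (by linarith))).trans ?_
    rw [← mul_assoc, ← ENNReal.ofReal_mul hCB, show (n : ℝ) - 2 + 1 = (n : ℝ) - 1 by ring]
    exact mul_le_mul' (ENNReal.ofReal_le_ofReal (by rw [hc]; linarith)) le_rfl
  obtain ⟨l1, l2⟩ := hloc r hh hr hh0 (by linarith) x hx1 hx2
  rw [← neg_sub (n : ℝ) 2] at l1
  rw [← neg_sub (n : ℝ) 1] at l2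
  have a1 := hgen _ _ l1
  exact ⟨a1.trans (add_le_add (mul_le_mul' cle le_rfl) le_rfl),
    a1.trans (add_le_add up le_rfl),
    (hgen _ _ l2).trans (add_le_add (mul_le_mul' cle le_rfl) le_rfl)⟩

/-- The boundary density on a sphere, from three potential norms. -/
theorem sphere_dens_boundW {u v : EuclideanSpace ℝ (Fin n) → ℝ} (h : IsSolW w₀ p q u v)
    (hp : 0 < p) (hq : 0 < q) (hcmp : ∀ x, v x ^ (p + 1) / (p + 1) ≤ u x ^ (q + 1) / (q + 1))
    {σu σv : ℝ} (hconj : σu.HolderConjugate σv) {c e Wu Wv ρ : ℝ} (hc0 : 0 ≤ c) (he0 : 0 ≤ e)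
    (heu : e ≤ Wu) (hev : e ≤ Wv) {fu fv : EuclideanSpace ℝ (Fin n) → ℝ≥0∞}
    (hfu : Measurable fu) (hfv : Measurable fv) {m₁ m₂ : ℝ}
    (g1 : potNorm m₁ (q + 1) fu ρ ≤ ENNReal.ofReal Wu)
    (g2 : potNorm m₂ σu fu ρ ≤ ENNReal.ofReal Wu) (g3 : potNorm m₂ σv fv ρ ≤ ENNReal.ofReal Wv)
    (hpt : ∀ θ : sphere (0 : EuclideanSpace ℝ (Fin n)) 1,
      let x := ρ • (θ : EuclideanSpace ℝ (Fin n))
      (ENNReal.ofReal (u x) ≤ ENNReal.ofReal c * pot m₁ fu x + ENNReal.ofReal e) ∧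
      (ENNReal.ofReal (u x) ≤ ENNReal.ofReal c * pot m₂ fu x + ENNReal.ofReal e) ∧
      (ENNReal.ofReal ‖fderiv ℝ u x‖ ≤ ENNReal.ofReal c * pot m₂ fu x + ENNReal.ofReal e) ∧
      (ENNReal.ofReal (v x) ≤ ENNReal.ofReal c * pot m₂ fv x + ENNReal.ofReal e) ∧
      (ENNReal.ofReal ‖fderiv ℝ v x‖ ≤ ENNReal.ofReal c * pot m₂ fv x + ENNReal.ofReal e)) :
    slice volume (fun x => ENNReal.ofReal (sphereDens p q u v x)) ρ ≤
      ENNReal.ofReal ((1 + (p + 1) / (q + 1)) * (2 ^ (q + 1) * (c ^ (q + 1) +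
        (volume : Measure (EuclideanSpace ℝ (Fin n))).toSphere.real univ) * Wu ^ (q + 1))) +
      3 * (ENNReal.ofReal ((2 ^ σu * (c ^ σu +
          (volume : Measure (EuclideanSpace ℝ (Fin n))).toSphere.real univ)) ^ (1 / σu) * Wu) *
        ENNReal.ofReal ((2 ^ σv * (c ^ σv +
          (volume : Measure (EuclideanSpace ℝ (Fin n))).toSphere.real univ)) ^ (1 / σv) * Wv)) := by
  have hWu : 0 ≤ Wu := he0.trans heu
  have hWv : 0 ≤ Wv := he0.trans hev
  set κ := (p + 1) / (q + 1) with hκ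
  have hκ0 : 0 ≤ κ := by positivity
  set S := (volume : Measure (EuclideanSpace ℝ (Fin n))).toSphere
  have s1 := slice_pot_le (by linarith : (1 : ℝ) ≤ q + 1) hc0 he0 heu g1
  have s2 := slice_pot_le hconj.lt.le hc0 he0 heu g2
  have s3 := slice_pot_le hconj.symm.lt.le hc0 he0 hev g3
  set H := fun (m : ℝ) (f : EuclideanSpace ℝ (Fin n) → ℝ≥0∞)
      (θ : sphere (0 : EuclideanSpace ℝ (Fin n)) 1) =>
    ENNReal.ofReal c * pot m f (ρ • (θ : EuclideanSpace ℝ (Fin n))) + ENNReal.ofReal e with hH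
  have hmP : ∀ (m : ℝ) {f : EuclideanSpace ℝ (Fin n) → ℝ≥0∞}, Measurable f → Measurable (H m f) :=
    fun m f hf => (((measurable_pot m hf).comp
      (measurable_subtype_coe.const_smul ρ)).const_mul _).add measurable_const
  calc slice volume (fun x => ENNReal.ofReal (sphereDens p q u v x)) ρ
      ≤ ∫⁻ θ, (ENNReal.ofReal (1 + κ) * H m₁ fu θ ^ (q + 1) + 3 * (H m₂ fu θ * H m₂ fv θ)) ∂S := by
        refine lintegral_mono fun θ => ?_
        obtain ⟨a, b, c', d, e'⟩ := hpt θ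
        set x := ρ • (θ : EuclideanSpace ℝ (Fin n))
        have hup := (h.posU x).le
        have hvp := (h.posV x).le
        have hen : energy p q u v x ≤ (1 + κ) * u x ^ (q + 1) := by
          have := hcmp x
          rw [div_le_iff₀ (by linarith)] at this
          have e2 : u x ^ (q + 1) / (q + 1) * (p + 1) = κ * u x ^ (q + 1) := by rw [hκ]; ring
          simp only [energy]
          linarith
        show ENNReal.ofReal (sphereDens p q u v x) ≤ ENNReal.ofReal (1 + κ) *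
            (ENNReal.ofReal c * pot m₁ fu x + ENNReal.ofReal e) ^ (q + 1) +
          3 * ((ENNReal.ofReal c * pot m₂ fu x + ENNReal.ofReal e) *
            (ENNReal.ofReal c * pot m₂ fv x + ENNReal.ofReal e))
        rw [sphereDens, add_assoc, add_assoc]
        refine ENNReal.ofReal_add_le.trans (add_le_add ?_ ?_)
        · refine (ENNReal.ofReal_le_ofReal hen).trans ?_
          rw [ENNReal.ofReal_mul (by positivity),
            ← ENNReal.ofReal_rpow_of_nonneg hup (by linarith)]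
          gcongr
        · rw [ENNReal.ofReal_add (by positivity) (by positivity),
            ENNReal.ofReal_add (by positivity) (by positivity),
            ENNReal.ofReal_mul (norm_nonneg _), ENNReal.ofReal_mul hvp, ENNReal.ofReal_mul hup]
          refine le_trans (add_le_add (mul_le_mul' c' e') (add_le_add (mul_le_mul' d c')
            (mul_le_mul' b e'))) (le_of_eq (by ring))
    _ = ENNReal.ofReal (1 + κ) * (∫⁻ θ, H m₁ fu θ ^ (q + 1) ∂S) +
        3 * ∫⁻ θ, H m₂ fu θ * H m₂ fv θ ∂S := by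
        have hm : Measurable fun θ => 3 * (H m₂ fu θ * H m₂ fv θ) :=
          ((hmP _ hfu).mul (hmP _ hfv)).const_mul 3
        rw [lintegral_add_right _ hm,
          lintegral_const_mul' _ _ ENNReal.ofReal_ne_top,
          lintegral_const_mul' _ _ (by norm_num)]
    _ ≤ _ := by
        rw [ENNReal.ofReal_mul (by positivity : 0 ≤ 1 + κ)]
        refine add_le_add (mul_le_mul' le_rfl s1) (mul_le_mul' le_rfl
          ((ENNReal.lintegral_mul_le_Lp_mul_Lq S hconj (hmP _ hfu).aemeasurable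
            (hmP _ hfv).aemeasurable).trans ?_))
        have root : ∀ {σ a W : ℝ}, 0 < σ → 0 ≤ a → 0 ≤ W →
            (ENNReal.ofReal (a * W ^ σ)) ^ (1 / σ) = ENNReal.ofReal (a ^ (1 / σ) * W) := by
          intro σ a W hσ ha hW
          rw [ENNReal.ofReal_rpow_of_nonneg (by positivity) (by positivity),
            Real.mul_rpow ha (by positivity), ← Real.rpow_mul hW,
            mul_one_div_cancel hσ.ne', Real.rpow_one]
        refine mul_le_mul' ?_ ?_
        · exact (ENNReal.rpow_le_rpow s2 (one_div_nonneg.2 hconj.pos.le)).trans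
            (le_of_eq (root hconj.pos (by positivity) hWu))
        · exact (ENNReal.rpow_le_rpow s3 (one_div_nonneg.2 hconj.symm.pos.le)).trans
            (le_of_eq (root hconj.symm.pos (by positivity) hWv))

/-- The `L^(1/(1-A))` norm of `v ^ p` on an annulus. -/
theorem norm_annFun_leW {u v : EuclideanSpace ℝ (Fin n) → ℝ} (h : IsSolW w₀ p q u v) {s A L b T : ℝ}
    (hs : 0 < s) (hA0 : 0 ≤ A) (hA : A * (s + 1) ≤ 1) (hL : 1 ≤ L) (hb : b ≤ 4)
    {w : EuclideanSpace ℝ (Fin n) → ℝ} (hw : Continuous w) (hw0 : ∀ y, 0 < w y)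
    (hwL : (∫ y in ann n 4, w y ^ s) ≤ L) (hle : ∀ y, w y ^ (s + 1) ≤ energy p q u v y)
    (hT : 1 + ∫ y in closedBall (0 : EuclideanSpace ℝ (Fin n)) b, energy p q u v y ≤ T) :
    (∫⁻ y, annFun (fun z => w z ^ s) b y ^ (1 / (1 - A))) ^ (1 - A) ≤
      ENNReal.ofReal (L * T ^ (s * A)) := by
  have hcw : Continuous fun y => w y ^ s := hw.rpow_const fun y => Or.inr hs.le
  have hw0' : ∀ y, 0 ≤ w y ^ s := fun y => Real.rpow_nonneg (hw0 y).le _
  have hE0 : 0 ≤ ∫ y in closedBall (0 : EuclideanSpace ℝ (Fin n)) b, energy p q u v y :=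
    setIntegral_nonneg isClosed_closedBall.measurableSet fun x _ => h.energy_nonneg x
  refine norm_bound (measurable_annFun hcw b) hs hA0 hA hL (by linarith) ?_ ?_
  · rw [lintegral_annFun hcw hw0']
    exact ENNReal.ofReal_le_ofReal ((ann_mono_integral hcw hw0' hb).trans hwL)
  · exact (lintegral_top_leW h hs hw hw0 hle).trans
      (ENNReal.ofReal_le_ofReal (by linarith))

/-- The energy of a ball is controlled by a power less than one of a larger one. -/
theorem energy_stepW (hn : 3 ≤ n) (hw : -2 < w₀) (hw0 : w₀ ≤ 0) (hq : 0 < q) (hqp : q ≤ p) (hpq : 1 < p * q)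
    (ha : (n : ℝ) - 3 < 2 * (p + 1) / (p * q - 1))
    (hsub : (n : ℝ) - 2 < ((n : ℝ) + w₀) / (p + 1) + ((n : ℝ) + w₀) / (q + 1)) :
    ∃ C M δ : ℝ, 0 ≤ C ∧ 0 ≤ M ∧ 0 ≤ δ ∧ δ < 1 ∧
      ∀ u v : EuclideanSpace ℝ (Fin n) → ℝ, IsSolW w₀ p q u v →
        ∀ r h : ℝ, 1 ≤ r → 0 < h → h ≤ 1 → r + h ≤ 2 →
          ∫ x in closedBall (0 : EuclideanSpace ℝ (Fin n)) r, energyW w₀ p q u v x ≤
            C * h ^ (-M) *
              (1 + ∫ x in closedBall (0 : EuclideanSpace ℝ (Fin n)) (r + h),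
                energyW w₀ p q u v x) ^ δ := by
  have hp : 0 < p := hq.trans_le hqp
  obtain ⟨k, A, B, hkn, hk1, hA0, hB0, hAB, hA1, hB1, hAp, hBq, hks, hs1, hd1, hd2⟩ :=
    exists_exponents_three (by exact_mod_cast hn : (3 : ℝ) ≤ n) hq hqp hpq ha
  obtain ⟨σu, σv, hconj, Cs, hCs, hsl⟩ := sliced_three_low hn hq hkn hk1 hA0 hB0 hAB hks hs1
  obtain ⟨CA, hCA, hann⟩ := ann_boundsW (n := n) (by omega) hw0 hp hq hpq
  obtain ⟨CB, M, hCB, hM, hloc⟩ := localW (n := n) (p := p) (q := q) (by omega) hw0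
  have hR : 0 ≤ Cs * (CA + 1) := by positivity
  have hE : 0 ≤ CB * CA := by positivity
  obtain ⟨W₀, hW₀⟩ : ∃ W₀, W₀ = 24 * (Cs * (CA + 1)) + CB * CA := ⟨_, rfl⟩
  obtain ⟨c, hc⟩ : ∃ c, c = 8 * CB + CB := ⟨_, rfl⟩
  obtain ⟨m₀, hm₀⟩ : ∃ m₀, m₀ = (volume : Measure (EuclideanSpace ℝ (Fin n))).toSphere.real univ :=
    ⟨_, rfl⟩
  have hm0 : 0 ≤ m₀ := hm₀ ▸ measureReal_nonneg
  have hc0 : 0 ≤ c := by rw [hc]; positivity
  have hW0 : 0 ≤ W₀ := by rw [hW₀]; positivity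
  obtain ⟨a₁, ha₁⟩ : ∃ a, a = (1 + (p + 1) / (q + 1)) * (2 ^ (q + 1) * (c ^ (q + 1) + m₀)) :=
    ⟨_, rfl⟩
  obtain ⟨a₂, ha₂⟩ : ∃ a, a = 3 * ((2 ^ σu * (c ^ σu + m₀)) ^ (1 / σu) *
      (2 ^ σv * (c ^ σv + m₀)) ^ (1 / σv)) := ⟨_, rfl⟩
  have ha10 : 0 ≤ a₁ := by rw [ha₁]; positivity
  have ha20 : 0 ≤ a₂ := by rw [ha₂]; positivity
  refine ⟨4 * (|pohoConstW n w₀ p q * 2 ^ (n - 1) / marginW n w₀ p q| *
      (a₁ * W₀ ^ (q + 1) + a₂ * W₀ ^ 2)) *
      (2 ^ (-w₀)) ^ max (p * A * (q + 1)) (p * A + q * B), (M + 1) * (q + 3) + 1,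
    max (p * A * (q + 1)) (p * A + q * B), by positivity, by positivity,
    le_max_of_le_right (by positivity), max_lt hd1 hd2, fun u v h r hh hr hh0 hh1 hrh => ?_⟩
  have hcv : Continuous fun y => v y ^ p := h.contV.rpow_const fun y => Or.inl (h.posV y).ne'
  have hcu : Continuous fun y => u y ^ q := h.contU.rpow_const fun y => Or.inl (h.posU y).ne'
  have hb4 : r + hh ≤ 4 := by linarith
  obtain ⟨bu, bv, bf, bg⟩ := hann u v h
  have hn2 : 2 ≤ n := by omega
  have hF0 : 0 ≤ ∫ x in closedBall (0 : EuclideanSpace ℝ (Fin n)) (r + hh),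
      energyW w₀ p q u v x :=
    setIntegral_nonneg isClosed_closedBall.measurableSet fun x _ => h.energyW_nonneg x
  have h2w : (1 : ℝ) ≤ 2 ^ (-w₀) := Real.one_le_rpow one_le_two (by linarith)
  obtain ⟨T, hT⟩ : ∃ T, T = 2 ^ (-w₀) * (1 + ∫ x in closedBall
      (0 : EuclideanSpace ℝ (Fin n)) (r + hh), energyW w₀ p q u v x) := ⟨_, rfl⟩
  have hTE : 1 + ∫ x in closedBall (0 : EuclideanSpace ℝ (Fin n)) (r + hh),
      energy p q u v x ≤ T := by
    have := h.energy_integral_le hn2 hw hw0 hrh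
    rw [hT]; linarith
  have hT1 : 1 ≤ T := hT ▸ one_le_mul_of_one_le_of_one_le h2w (le_add_of_nonneg_right hF0)
  have nu := norm_annFun_leW h hp hA0 hAp (L := CA + 1) (by linarith) hb4 h.contV h.posV
    (by linarith) (fun y => le_add_of_nonneg_left (Real.rpow_nonneg (h.posU y).le _)) hTE
  have nv := norm_annFun_leW h hq hB0 hBq (L := CA + 1) (by linarith) hb4 h.contU h.posU
    (by linarith) (fun y => le_add_of_nonneg_right (Real.rpow_nonneg (h.posV y).le _)) hTE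
  have hTA : 1 ≤ T ^ (p * A) := Real.one_le_rpow hT1 (by positivity)
  have hTB : 1 ≤ T ^ (q * B) := Real.one_le_rpow hT1 (by positivity)
  obtain ⟨i1, i2⟩ := (hsl _ (measurable_annFun hcv _)
    (fun y hy => annFun_eq_zero _ hb4 hy) _ (by positivity)).1 nu
  have i3 := (hsl _ (measurable_annFun hcu _)
    (fun y hy => annFun_eq_zero _ hb4 hy) _ (by positivity)).2 nv
  have sub : Icc r (r + hh / 2) ⊆ Icc (1 / 2 : ℝ) 4 :=
    Icc_subset_Icc (by linarith) (by linarith)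
  obtain ⟨K, hKc, hKs, hKv, hKP⟩ := exists_radii_three
    (measurable_potNorm ((n : ℝ) - 2) (q + 1) (measurable_annFun hcv (r + hh)))
    (measurable_potNorm ((n : ℝ) - 1) σu (measurable_annFun hcv (r + hh)))
    (measurable_potNorm ((n : ℝ) - 1) σv (measurable_annFun hcu (r + hh))) hh0
    (by positivity) (by positivity) (by positivity)
    ((lintegral_mono_set sub).trans i1) ((lintegral_mono_set sub).trans i2)
    ((lintegral_mono_set sub).trans i3)
  obtain ⟨w1, w2⟩ := step_weight hR hE hW₀ hM hh0 hh1 hTA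
  obtain ⟨w3, w4⟩ := step_weight hR hE hW₀ hM hh0 hh1 hTB
  rw [mul_assoc Cs] at w1 w3
  have hcmp := souplet_comparisonW (by omega) hw hw0 hq hqp hpq h
  have hslice : ∀ ρ ∈ K, slice volume (fun x => ENNReal.ofReal (sphereDens p q u v x)) ρ ≤
      ENNReal.ofReal ((a₁ * W₀ ^ (q + 1) + a₂ * W₀ ^ 2) *
        (hh ^ (-((M + 1) * (q + 3))) * T ^ max (p * A * (q + 1)) (p * A + q * B))) := by
    intro ρ hρ
    obtain ⟨g1, g2, g3⟩ := hKP ρ hρ
    have hρ1 : 1 ≤ ρ := hr.trans (hKs hρ).1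
    refine (sphere_dens_boundW h hp hq hcmp hconj hc0 (e := CB * CA * hh ^ (-M)) (by positivity)
      w2 w4 (measurable_annFun hcv (r + hh)) (measurable_annFun hcu (r + hh))
      (g1.trans (ENNReal.ofReal_le_ofReal w1)) (g2.trans (ENNReal.ofReal_le_ofReal w1))
      (g3.trans (ENNReal.ofReal_le_ofReal w3)) fun θ => ?_).trans ?_
    · have hρn : ‖ρ • (θ : EuclideanSpace ℝ (Fin n))‖ = ρ := by
        simp [norm_smul, abs_of_pos (zero_lt_one.trans_le hρ1)]
      obtain ⟨a, b, c'⟩ := sol_pointwiseW (by omega) hCB hc h (hloc u v h).1 bu hr hh0 hrh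
        (x := ρ • (θ : EuclideanSpace ℝ (Fin n))) (by rw [hρn]; exact hρ1)
        (by rw [hρn]; exact (hKs hρ).2)
      obtain ⟨-, d, e'⟩ := sol_pointwiseW (by omega) hCB hc h.swap (hloc u v h).2 bv hr hh0 hrh
        (x := ρ • (θ : EuclideanSpace ℝ (Fin n))) (by rw [hρn]; exact hρ1)
        (by rw [hρn]; exact (hKs hρ).2)
      rw [mul_right_comm CB CA]
      exact ⟨a, b, c', d, e'⟩
    · rw [← hm₀, ← ENNReal.ofReal_mul (by positivity), ← ENNReal.ofReal_ofNat 3,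
        ← ENNReal.ofReal_mul (by positivity), ← ENNReal.ofReal_add (by positivity) (by positivity)]
      refine ENNReal.ofReal_le_ofReal (le_of_eq_of_le ?_ (dens_final (p := p) (A := A) (B := B)
        ha10 ha20 hW0 hM hq hh0 hh1 hT1))
      rw [ha₁, ha₂]; ring
  have key := ball_bound_of_good_radiiW (by omega) hp hq hw hw0 hsub h hKc hr
    (hKs.trans (Icc_subset_Icc le_rfl (by linarith))) (by positivity) hslice
  have hkey2 := le_trans (mul_le_mul_of_nonneg_right hKv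
    (setIntegral_nonneg isClosed_closedBall.measurableSet fun x _ => h.energyW_nonneg x))
    (key.trans (mul_le_mul_of_nonneg_right (le_abs_self _) (by positivity)))
  rw [div_mul_eq_mul_div, div_le_iff₀ (by norm_num : (0 : ℝ) < 4), ← le_div_iff₀' hh0] at hkey2
  refine hkey2.trans (le_of_eq ?_)
  rw [hT, Real.mul_rpow (by positivity) (by positivity),
    show -((M + 1) * (q + 3) + 1) = -((M + 1) * (q + 3)) + -1 by ring, Real.rpow_add hh0,
    Real.rpow_neg_one]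
  ring

/-- **No solution with a common weight `w ∈ (-2, 0]` when `max (α, β) > n - 3`.** -/
theorem souplet_range_equal_weight (hn : 3 ≤ n) (hw : -2 < w₀) (hw0 : w₀ ≤ 0) (hq : 0 < q)
    (hqp : q ≤ p) (hpq : 1 < p * q) (ha : (n : ℝ) - 3 < 2 * (p + 1) / (p * q - 1))
    (hsub : (n : ℝ) - 2 < ((n : ℝ) + w₀) / (p + 1) + ((n : ℝ) + w₀) / (q + 1)) :
    ¬ ∃ u v : EuclideanSpace ℝ (Fin n) → ℝ,
      Continuous u ∧ Continuous v ∧ ContDiffOn ℝ 2 u {0}ᶜ ∧ ContDiffOn ℝ 2 v {0}ᶜ ∧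
      (∀ x, 0 < u x) ∧ (∀ x, 0 < v x) ∧
      (∀ x, x ≠ 0 → Laplacian.laplacian u x = -(‖x‖ ^ w₀ * v x ^ p)) ∧
      (∀ x, x ≠ 0 → Laplacian.laplacian v x = -(‖x‖ ^ w₀ * u x ^ q)) := by
  obtain ⟨C, M, δ, hC, hM, hδ0, hδ1, hstep⟩ := energy_stepW hn hw hw0 hq hqp hpq ha hsub
  obtain ⟨C', hC'⟩ := iterate_bound hδ0 hδ1 hM hC
  have hno := nonexistence_of_unit_boundW (n := n) (by omega) hw hw0 (hq.trans_le hqp) hq hpq hsub
    (C := C') fun u v h => by
    refine hC' (fun r => ∫ x in closedBall (0 : EuclideanSpace ℝ (Fin n)) r, energyW w₀ p q u v x)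
      (fun r => setIntegral_nonneg isClosed_closedBall.measurableSet fun x _ => h.energyW_nonneg x)
      ⟨∫ x in closedBall (0 : EuclideanSpace ℝ (Fin n)) 2, energyW w₀ p q u v x, fun r hr => ?_⟩
      (hstep u v h)
    exact setIntegral_mono_set (h.integrableOn_energyW (by omega) hw 2)
      (ae_of_all _ h.energyW_nonneg)
      (LE.le.eventuallyLE (closedBall_subset_closedBall hr.2))
  rintro ⟨u, v, h1, h2, h3, h4, h5, h6, h7, h8⟩
  exact hno ⟨u, v, ⟨h1, h2, h3, h4, h5, h6, h7, h8⟩⟩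

/-- The same, with `p` and `q` in either order. -/
theorem souplet_range_equal_weight_max (hn : 3 ≤ n) (hw : -2 < w₀) (hw0 : w₀ ≤ 0) (hp : 0 < p)
    (hq : 0 < q) (hpq : 1 < p * q)
    (ha : (n : ℝ) - 3 < max (2 * (p + 1) / (p * q - 1)) (2 * (q + 1) / (p * q - 1)))
    (hsub : (n : ℝ) - 2 < ((n : ℝ) + w₀) / (p + 1) + ((n : ℝ) + w₀) / (q + 1)) :
    ¬ ∃ u v : EuclideanSpace ℝ (Fin n) → ℝ,
      Continuous u ∧ Continuous v ∧ ContDiffOn ℝ 2 u {0}ᶜ ∧ ContDiffOn ℝ 2 v {0}ᶜ ∧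
      (∀ x, 0 < u x) ∧ (∀ x, 0 < v x) ∧
      (∀ x, x ≠ 0 → Laplacian.laplacian u x = -(‖x‖ ^ w₀ * v x ^ p)) ∧
      (∀ x, x ≠ 0 → Laplacian.laplacian v x = -(‖x‖ ^ w₀ * u x ^ q)) := by
  have hd : 0 < p * q - 1 := by linarith
  rcases le_total q p with hqp | hpq'
  · refine souplet_range_equal_weight hn hw hw0 hq hqp hpq ?_ hsub
    rwa [max_eq_left (div_le_div_of_nonneg_right (by linarith) hd.le)] at ha
  · rintro ⟨u, v, h1, h2, h3, h4, h5, h6, h7, h8⟩
    refine souplet_range_equal_weight (p := q) (q := p) hn hw hw0 hp hpq'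
      (by rwa [mul_comm]) ?_ (by linarith) ⟨v, u, h2, h1, h4, h3, h6, h5, h8, h7⟩
    rw [max_eq_right (div_le_div_of_nonneg_right (by linarith) hd.le)] at ha
    rwa [mul_comm q p]

end Vale.Agent.P100.SoupletW
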