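import Mathlib
import Vale.Agent.P100.AssemblyG
import Vale.Agent.P100.SoupletW.Main

/-!
# The Hénon–Lane–Emden conjecture in dimensions three and four, equal nonpositive weights

For `n ≤ 4` subcriticality puts `max (α, β)` above `n - 3`.
-/

open Laplacian

namespace Vale.Agent.P100.SoupletW

/-- Subcriticality at the weight `w ≤ 0` gives `α + β > n - 2`. -/
theorem sum_gt_of_sub {n w p q : ℝ} (hw0 : w ≤ 0) (hp : 0 < p) (hq : 0 < q)
    (hpq : 1 < p * q) (hsub : n - 2 < (n + w) / (p + 1) + (n + w) / (q + 1)) :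
    n - 2 < 2 * (p + 1) / (p * q - 1) + 2 * (q + 1) / (p * q - 1) := by
  rw [div_add_div _ _ (by linarith) (by linarith), lt_div_iff₀ (by positivity)] at hsub
  rw [← add_div, lt_div_iff₀ (by linarith)]
  nlinarith

/-- **No solution in dimensions three and four with a common weight `w ≤ 0`.** -/
theorem no_solution_equal_weight_low {n : ℕ} (hn3 : 3 ≤ n) (hn4 : n ≤ 4) {w p q : ℝ}
    (hw0 : w ≤ 0) (hp : 0 < p) (hq : 0 < q)
    (hsub : (n : ℝ) - 2 < ((n : ℝ) + w) / (p + 1) + ((n : ℝ) + w) / (q + 1)) :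
    ¬ ∃ u v : EuclideanSpace ℝ (Fin n) → ℝ,
      Continuous u ∧ Continuous v ∧ ContDiffOn ℝ 2 u {0}ᶜ ∧ ContDiffOn ℝ 2 v {0}ᶜ ∧
      (∀ x, 0 < u x) ∧ (∀ x, 0 < v x) ∧ (∀ x, x ≠ 0 → Δ u x = -(‖x‖ ^ w * v x ^ p)) ∧
      (∀ x, x ≠ 0 → Δ v x = -(‖x‖ ^ w * u x ^ q)) := by
  rcases le_or_gt w (-2) with hw | hw
  · rintro ⟨u, v, huc, hvc, hu, hv, hup, hvp, equ, eqv⟩
    exact no_solutionW_trivial hn3 hp hq hw0 hw0 (Or.inl hw) huc hvc hu hv hup hvp equ eqv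
  rcases le_or_gt (p * q) 1 with hpq | hpq
  · rintro ⟨u, v, huc, hvc, hu, hv, hup, hvp, equ, eqv⟩
    exact no_solutionW_trivial hn3 hp hq hw0 hw0 (Or.inr (Or.inr (Or.inl hpq))) huc hvc hu hv hup
      hvp equ eqv
  refine souplet_range_equal_weight_max hn3 hw hw0 hp hq hpq ?_ hsub
  have hn3' : (3 : ℝ) ≤ n := by exact_mod_cast hn3
  have hn4' : (n : ℝ) ≤ 4 := by exact_mod_cast hn4
  have h := sum_gt_of_sub hw0 hp hq hpq hsub
  have h1 := le_max_left (2 * (p + 1) / (p * q - 1)) (2 * (q + 1) / (p * q - 1))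
  have h2 := le_max_right (2 * (p + 1) / (p * q - 1)) (2 * (q + 1) / (p * q - 1))
  linarith

end Vale.Agent.P100.SoupletW
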